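import Mathlib

/-!
# P231, stage 2 (`l = 3`), block A3, part 1: the algebra of the volume formula

`R` is a commutative `ℝ`-algebra with elements `e, ε, F₁, F₂` satisfying, modulo an ideal `J`,
`e ε = F₁ - F₂`, `ε² = lam e² + 2c (F₁ + F₂)`, and `F₁^(n+1) = F₂^(n+1) = 0`.
A functional `L` vanishing on `J` with the symmetry `F₁ ↔ F₂` of sign `-1` satisfies
`lam L(e^(4n-1) ε) = - P_n(lam, c) L(ε² F₁^n F₂^(n-1))`.
-/

open Finset Polynomial

namespace Vale.Agent.P231.A3

/-- the polynomials `B_k`: `B_0 = 0`, `B_1 = 1`,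
`B_(k+2) = -(2c/lam) (X+1) B_(k+1) + (1/lam) (X-1)^2 B_k` -/
noncomputable def B (lam c : ℝ) : ℕ → ℝ[X]
  | 0 => 0
  | 1 => 1
  | k + 2 => C (-(2 * c / lam)) * ((X + 1) * B lam c (k + 1)) +
      C (1 / lam) * ((X - 1) ^ 2 * B lam c k)

/-- the number `P_n(lam, c)`: the middle coefficient of `B_(2n-1) (X-1)^2` -/
noncomputable def P (lam c : ℝ) (n : ℕ) : ℝ := ((X - 1) ^ 2 * B lam c (2 * n - 1)).coeff n

theorem natDegree_B (lam c : ℝ) (k : ℕ) : (B lam c k).natDegree ≤ k - 1 := by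
  induction k using Nat.strong_induction_on with
  | _ k ih =>
    match k with
    | 0 => simp [B]
    | 1 => simp [B]
    | k + 2 =>
      rw [B]
      have h1 : (X + 1 : ℝ[X]).natDegree ≤ 1 := by
        simpa using natDegree_X_add_C (1 : ℝ) |>.le
      have h2 : (X - 1 : ℝ[X]).natDegree ≤ 1 := by
        simpa using natDegree_X_sub_C (1 : ℝ) |>.le
      have h3 := ih (k + 1) (by omega)
      have h4 := ih k (by omega)
      refine natDegree_add_le_of_degree_le ?_ ?_
      · refine (natDegree_C_mul_le _ _).trans ((natDegree_mul_le).trans ?_)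
        omega
      · by_cases hk : k = 0
        · subst hk
          simp [B]
        · refine (natDegree_C_mul_le _ _).trans ((natDegree_mul_le).trans ?_)
          have h5 : ((X - 1 : ℝ[X]) ^ 2).natDegree ≤ 2 := by
            refine natDegree_pow_le.trans ?_
            omega
          omega

section Hom

variable {R : Type*} [CommRing R] [Algebra ℝ R]

/-- homogenised evaluation -/
noncomputable def H (a b : R) (m : ℕ) (p : ℝ[X]) : R :=
  ∑ i ∈ range (m + 1), p.coeff i • (a ^ i * b ^ (m - i))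

theorem H_add (a b : R) (m : ℕ) (p q : ℝ[X]) : H a b m (p + q) = H a b m p + H a b m q := by
  simp only [H, coeff_add, add_smul, sum_add_distrib]

theorem H_sub (a b : R) (m : ℕ) (p q : ℝ[X]) : H a b m (p - q) = H a b m p - H a b m q := by
  simp only [H, coeff_sub, sub_smul, sum_sub_distrib]

theorem H_C_mul (a b : R) (m : ℕ) (r : ℝ) (p : ℝ[X]) : H a b m (C r * p) = r • H a b m p := by
  simp only [H, coeff_C_mul, mul_smul, smul_sum]

theorem H_zero (a b : R) (m : ℕ) : H a b m 0 = 0 := by simp [H]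

theorem H_succ (a b : R) {m : ℕ} {p : ℝ[X]} (hp : p.natDegree ≤ m) :
    H a b (m + 1) p = b * H a b m p := by
  rw [H, sum_range_succ, coeff_eq_zero_of_natDegree_lt (by omega : p.natDegree < m + 1),
    zero_smul, add_zero, H, mul_sum]
  refine sum_congr rfl fun i hi => ?_
  have hi' : i ≤ m := Nat.lt_succ_iff.1 (mem_range.1 hi)
  have h1 : m + 1 - i = (m - i) + 1 := by omega
  rw [h1, pow_succ, mul_smul_comm]
  congr 1
  ring

theorem H_X_mul (a b : R) (m : ℕ) (p : ℝ[X]) : H a b (m + 1) (X * p) = a * H a b m p := by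
  rw [H, sum_range_succ', coeff_X_mul_zero, zero_smul, add_zero, H, mul_sum]
  refine sum_congr rfl fun i hi => ?_
  have h1 : m + 1 - (i + 1) = m - i := by omega
  rw [h1, coeff_X_mul, pow_succ, mul_smul_comm]
  congr 1
  ring

theorem H_X_add_mul (a b : R) {m : ℕ} {p : ℝ[X]} (hp : p.natDegree ≤ m) :
    H a b (m + 1) ((X + 1) * p) = (a + b) * H a b m p := by
  rw [add_mul, one_mul, H_add, H_X_mul, H_succ a b hp]
  ring

theorem H_X_sub_mul (a b : R) {m : ℕ} {p : ℝ[X]} (hp : p.natDegree ≤ m) :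
    H a b (m + 1) ((X - 1) * p) = (a - b) * H a b m p := by
  rw [sub_mul, one_mul, H_sub, H_X_mul, H_succ a b hp]
  ring

theorem natDegree_sub_mul {m : ℕ} {p : ℝ[X]} (hp : p.natDegree ≤ m) :
    ((X - 1) * p).natDegree ≤ m + 1 := by
  refine natDegree_mul_le.trans ?_
  have h2 : (X - 1 : ℝ[X]).natDegree ≤ 1 := by
    simpa using natDegree_X_sub_C (1 : ℝ) |>.le
  omega

theorem H_X_sub_sq_mul (a b : R) {m : ℕ} {p : ℝ[X]} (hp : p.natDegree ≤ m) :
    H a b (m + 2) ((X - 1) ^ 2 * p) = (a - b) ^ 2 * H a b m p := by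
  rw [pow_two, mul_assoc, H_X_sub_mul a b (natDegree_sub_mul hp), H_X_sub_mul a b hp]
  ring

/-- the powers of a root of `lam z² + 2c s z - δ² = 0` -/
theorem pow_root {lam c : ℝ} (hl : lam ≠ 0) {a b z : R}
    (hz : lam • z ^ 2 + (2 * c) • ((a + b) * z) - (a - b) ^ 2 = 0) (k : ℕ) :
    z ^ (k + 2) = H a b (k + 1) (B lam c (k + 2)) * z +
      (1 / lam) • ((a - b) ^ 2 * H a b k (B lam c (k + 1))) := by
  have hz2 : z ^ 2 = (-(2 * c / lam)) • ((a + b) * z) + (1 / lam) • (a - b) ^ 2 := by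
    have h1 : lam • z ^ 2 = (a - b) ^ 2 - (2 * c) • ((a + b) * z) := by
      rw [eq_sub_iff_add_eq]
      exact sub_eq_zero.1 hz
    have h2 : z ^ 2 = (1 / lam) • (lam • z ^ 2) := by
      rw [smul_smul, one_div, inv_mul_cancel₀ hl, one_smul]
    rw [h2, h1, smul_sub, smul_smul]
    have h3 : (1 / lam * (2 * c)) = 2 * c / lam := by ring
    rw [h3, neg_smul]
    abel
  induction k with
  | zero =>
    have h1 : B lam c (0 + 2) = C (-(2 * c / lam)) * ((X + 1) * 1) + C (1 / lam) * 0 := by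
      simp [B]
    have h2 : B lam c (0 + 1) = 1 := rfl
    have h3 : H a b 0 (1 : ℝ[X]) = 1 := by simp [H]
    rw [h1, h2, H_add, H_C_mul, H_C_mul, H_zero, smul_zero, add_zero,
      H_X_add_mul a b (by simp), h3, mul_one, mul_one, hz2]
    rw [smul_mul_assoc]
  | succ k ih =>
    have h0 : z ^ (k + 1 + 2) = z ^ (k + 2) * z := by rw [← pow_succ]
    have hd2 : (B lam c (k + 2)).natDegree ≤ k + 1 := by
      have := natDegree_B lam c (k + 2)
      omega
    have hd1 : (B lam c (k + 1)).natDegree ≤ k := by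
      have := natDegree_B lam c (k + 1)
      omega
    have h1 : B lam c (k + 1 + 2) = C (-(2 * c / lam)) * ((X + 1) * B lam c (k + 2)) +
      C (1 / lam) * ((X - 1) ^ 2 * B lam c (k + 1)) := rfl
    rw [h0, ih, h1, H_add, H_C_mul, H_C_mul, H_X_add_mul a b hd2,
      H_X_sub_sq_mul a b hd1, add_mul, mul_assoc, ← pow_two, hz2]
    have e1 : B lam c (k + 1 + 1) = B lam c (k + 2) := rfl
    rw [e1]
    simp only [Algebra.smul_def]
    ring

end Hom

/-- **The algebra of the volume formula.** -/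
theorem main {R : Type*} [CommRing R] [Algebra ℝ R] {J : Ideal R} {L : R →ₗ[ℝ] ℝ}
    (hL : ∀ x ∈ J, L x = 0) {n : ℕ} (hn : 1 ≤ n) {lam c : ℝ} (hl : lam ≠ 0) {e ε a b : R}
    (h1 : e * ε - (a - b) ∈ J) (h2 : ε ^ 2 - (lam • e ^ 2 + (2 * c) • (a + b)) ∈ J)
    (ha : a ^ (n + 1) = 0) (hb : b ^ (n + 1) = 0) (hL1 : L (a ^ n * b ^ n) = 0)
    (hL2 : L (e ^ 2 * (a ^ (n - 1) * b ^ n)) = -L (e ^ 2 * (a ^ n * b ^ (n - 1)))) :
    lam * L (e ^ (4 * n - 1) * ε) = -(P lam c n * L (ε ^ 2 * (a ^ n * b ^ (n - 1)))) := by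
  let π := Ideal.Quotient.mk J
  have hLe : ∀ x y : R, π x = π y → L x = L y := fun x y h => by
    have := hL _ ((Ideal.Quotient.eq).1 h)
    rw [map_sub] at this
    linarith
  have hπs : ∀ (r : ℝ) (x : R), π (r • x) = r • π x := fun r x =>
    map_smul (Ideal.Quotient.mkₐ ℝ J) r x
  have e1 : π e * π ε = π a - π b := by
    rw [← map_mul, ← map_sub]
    exact Ideal.Quotient.eq.2 h1
  have e2 : π ε ^ 2 = lam • π e ^ 2 + (2 * c) • (π a + π b) := by
    have h := Ideal.Quotient.eq.2 h2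
    rw [← map_pow]
    refine h.trans ?_
    rw [map_add, hπs, hπs, map_pow, map_add]
  -- vanishing of the other monomials
  have hmon : ∀ i j : ℕ, i + j = 2 * n → i ≠ n → a ^ i * b ^ j = 0 := by
    intro i j hij hi
    rcases Nat.lt_or_gt_of_ne hi with h | h
    · have : b ^ j = 0 := by
        obtain ⟨k, rfl⟩ := Nat.exists_eq_add_of_le (show n + 1 ≤ j by omega)
        rw [pow_add, hb, zero_mul]
      rw [this, mul_zero]
    · have : a ^ i = 0 := by
        obtain ⟨k, rfl⟩ := Nat.exists_eq_add_of_le (show n + 1 ≤ i by omega)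
        rw [pow_add, ha, zero_mul]
      rw [this, zero_mul]
  have hmon2 : ∀ i j : ℕ, i + j = 2 * n - 1 → i ≠ n → i ≠ n - 1 → a ^ i * b ^ j = 0 := by
    intro i j hij hi hi'
    rcases Nat.lt_or_gt_of_ne hi with h | h
    · have : b ^ j = 0 := by
        obtain ⟨k, rfl⟩ := Nat.exists_eq_add_of_le (show n + 1 ≤ j by omega)
        rw [pow_add, hb, zero_mul]
      rw [this, mul_zero]
    · have : a ^ i = 0 := by
        obtain ⟨k, rfl⟩ := Nat.exists_eq_add_of_le (show n + 1 ≤ i by omega)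
        rw [pow_add, ha, zero_mul]
      rw [this, zero_mul]
  have hLH : ∀ p : ℝ[X], L (H a b (2 * n) p) = 0 := by
    intro p
    rw [H, map_sum]
    refine sum_eq_zero fun i hi => ?_
    have hi' : i ≤ 2 * n := Nat.lt_succ_iff.1 (mem_range.1 hi)
    rw [map_smul]
    by_cases hin : i = n
    · have : 2 * n - i = n := by omega
      rw [this, hin, hL1, smul_zero]
    · rw [hmon i (2 * n - i) (by omega) hin, map_zero, smul_zero]
  set d := L (e ^ 2 * (a ^ n * b ^ (n - 1))) with hd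
  have hLz : ∀ p : ℝ[X], L (e ^ 2 * H a b (2 * n - 1) p) = (p.coeff n - p.coeff (n - 1)) * d := by
    intro p
    have hsub : ({n, n - 1} : Finset ℕ) ⊆ range (2 * n - 1 + 1) := by
      intro i hi
      rw [mem_insert, mem_singleton] at hi
      rw [mem_range]
      omega
    rw [H, ← sum_subset hsub, sum_pair (by omega), mul_add, map_add, mul_smul_comm, map_smul,
      mul_smul_comm, map_smul]
    · have t1 : 2 * n - 1 - n = n - 1 := by omega
      have t2 : 2 * n - 1 - (n - 1) = n := by omega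
      rw [t1, t2, hL2, ← hd, smul_eq_mul, smul_eq_mul]
      ring
    · intro i hi hin
      rw [mem_insert, mem_singleton, not_or] at hin
      have hi' : i ≤ 2 * n - 1 := Nat.lt_succ_iff.1 (mem_range.1 hi)
      rw [hmon2 i (2 * n - 1 - i) (by omega) hin.1 hin.2, smul_zero]
  -- the quadratic relation
  have hz : lam • (π e ^ 2) ^ 2 + (2 * c) • ((π a + π b) * π e ^ 2) - (π a - π b) ^ 2 = 0 := by
    rw [← e1, mul_pow, e2]
    simp only [Algebra.smul_def]
    ring
  have hπH : ∀ (m : ℕ) (p : ℝ[X]), π (H a b m p) = H (π a) (π b) m p := by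
    intro m p
    rw [H, H, map_sum]
    refine sum_congr rfl fun i _ => ?_
    rw [Algebra.smul_def, map_mul, map_mul, map_pow, map_pow, Algebra.smul_def]
    rfl
  have hd1 : (B lam c (2 * n - 1)).natDegree ≤ 2 * n - 2 := by
    have := natDegree_B lam c (2 * n - 1)
    omega
  have hd2 : (B lam c (2 * n - 2)).natDegree ≤ 2 * n - 3 := by
    have := natDegree_B lam c (2 * n - 2)
    omega
  have key : π (e ^ (4 * n - 1) * ε) =
      π (e ^ 2 * H a b (2 * n - 1) ((X - 1) * B lam c (2 * n - 1)) +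
        (1 / lam) • H a b (2 * n) ((X - 1) ^ 3 * B lam c (2 * n - 2))) := by
    have t1 : π (e ^ (4 * n - 1) * ε) = (π e ^ 2) ^ (2 * n - 1) * (π a - π b) := by
      have t2 : 4 * n - 1 = 2 * (2 * n - 1) + 1 := by omega
      rw [map_mul, map_pow, t2, pow_succ, mul_assoc, e1, pow_mul]
    rw [t1]
    by_cases hn1 : n = 1
    · subst hn1
      have t3 : (X - 1 : ℝ[X]) ^ 3 * B lam c (2 * 1 - 2) = 0 := by simp [B]
      have t4 : B lam c (2 * 1 - 1) = 1 := rfl
      rw [t3, H_zero, smul_zero, add_zero, t4, map_mul, hπH]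
      have t5 : H (π a) (π b) (2 * 1 - 1) ((X - 1) * 1 : ℝ[X]) = (π a - π b) * 1 := by
        have := H_X_sub_mul (π a) (π b) (m := 0) (p := (1 : ℝ[X])) (by simp)
        rw [show (2 * 1 - 1 : ℕ) = 0 + 1 from rfl, this]
        simp [H]
      rw [t5]
      simp
    · obtain ⟨k, hk⟩ : ∃ k, 2 * n - 1 = k + 2 := ⟨2 * n - 3, by omega⟩
      have hk1 : 2 * n - 2 = k + 1 := by omega
      have hk2 : 2 * n = (k + 1) + 2 := by omega
      have t6 := pow_root hl hz k
      rw [hk] at hd1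
      have hd1' : (B lam c (k + 2)).natDegree ≤ k + 1 := by omega
      have hd2' : (B lam c (k + 1)).natDegree ≤ k := by
        have := natDegree_B lam c (k + 1)
        omega
      have t7 : (X - 1 : ℝ[X]) ^ 3 * B lam c (k + 1) =
          (X - 1) * ((X - 1) ^ 2 * B lam c (k + 1)) := by ring
      have t8 : ((X - 1 : ℝ[X]) ^ 2 * B lam c (k + 1)).natDegree ≤ k + 2 := by
        rw [pow_two, mul_assoc]
        exact natDegree_sub_mul (natDegree_sub_mul hd2')
      have t10 := H_X_sub_mul (π a) (π b) hd1'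
      have t11 := H_X_sub_mul (π a) (π b) t8
      have t12 := H_X_sub_sq_mul (π a) (π b) hd2'
      rw [hk, hk1, hk2, t6, map_add, map_mul, hπH, t7, hπs, hπH]
      rw [show k + 2 = (k + 1) + 1 from rfl] at *
      rw [t10, show k + 1 + 2 = (k + 1 + 1) + 1 from rfl, t11, t12, map_pow]
      simp only [Algebra.smul_def]
      ring
  have e3 := hLe _ _ key
  rw [map_add, map_smul, hLH, smul_zero, add_zero, hLz] at e3
  -- the coefficient
  have hcoef : ((X - 1) * B lam c (2 * n - 1)).coeff n -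
      ((X - 1) * B lam c (2 * n - 1)).coeff (n - 1) = -P lam c n := by
    obtain ⟨m, rfl⟩ : ∃ m, n = m + 1 := ⟨n - 1, by omega⟩
    have t1 : (X - 1 : ℝ[X]) ^ 2 * B lam c (2 * (m + 1) - 1) =
        X * ((X - 1) * B lam c (2 * (m + 1) - 1)) - (X - 1) * B lam c (2 * (m + 1) - 1) := by
      ring
    rw [P, t1, coeff_sub, coeff_X_mul, Nat.add_sub_cancel]
    ring
  rw [hcoef] at e3
  -- the normalisation
  have e4 : L (ε ^ 2 * (a ^ n * b ^ (n - 1))) = lam * d := by
    have t1 : π (ε ^ 2 * (a ^ n * b ^ (n - 1))) =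
        π (lam • (e ^ 2 * (a ^ n * b ^ (n - 1))) +
          (2 * c) • ((a + b) * (a ^ n * b ^ (n - 1)))) := by
      rw [map_add, hπs, hπs]
      simp only [map_mul, map_pow, map_add]
      rw [e2]
      simp only [Algebra.smul_def]
      ring
    have t2 : (a + b) * (a ^ n * b ^ (n - 1)) = a ^ n * b ^ n := by
      obtain ⟨m, rfl⟩ : ∃ m, n = m + 1 := ⟨n - 1, by omega⟩
      rw [Nat.add_sub_cancel]
      calc (a + b) * (a ^ (m + 1) * b ^ m) = a ^ (m + 1 + 1) * b ^ m + a ^ (m + 1) * b ^ (m + 1) := by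
            ring
        _ = _ := by rw [ha, zero_mul, zero_add]
    rw [hLe _ _ t1, map_add, map_smul, map_smul, t2, hL1, smul_zero, add_zero, smul_eq_mul]
  rw [e3, e4]
  ring

end Vale.Agent.P231.A3
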