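import Vale.Agent.P231.A3.Alg

/-!
# P231, stage 2 (`l = 3`), block A3, part 2: bounds and value of `P_n(lam, c)`

`|P_n(lam, c)| ≤ binom(4n-2, 2n-1) - binom(4n-2, 2n+1)` if `1 ≤ |lam|` and `|c| ≤ 1`.
-/

open Finset Polynomial

namespace Vale.Agent.P231.A3

/-! ### the middle coefficients of `(X+1)^(2p) (X-1)^(2q)` -/

/-- the middle coefficient of `(X+1)^(2p) (X-1)^(2q)` -/
noncomputable def K (p q : ℕ) : ℝ := ((X + 1 : ℝ[X]) ^ (2 * p) * (X - 1) ^ (2 * q)).coeff (p + q)

theorem K_succ (p q : ℕ) : K p (q + 1) = K (p + 1) q - 4 * K p q := by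
  have h : (X + 1 : ℝ[X]) ^ (2 * p) * (X - 1) ^ (2 * (q + 1)) =
      (X + 1) ^ (2 * (p + 1)) * (X - 1) ^ (2 * q) -
        C 4 * (X * ((X + 1) ^ (2 * p) * (X - 1) ^ (2 * q))) := by
    have h1 : (X - 1 : ℝ[X]) ^ (2 * (q + 1)) = (X - 1) ^ 2 * (X - 1) ^ (2 * q) := by
      rw [← pow_add]; congr 1; ring
    have h2 : (X + 1 : ℝ[X]) ^ (2 * (p + 1)) = (X + 1) ^ 2 * (X + 1) ^ (2 * p) := by
      rw [← pow_add]; congr 1; ring
    have h3 : (C 4 : ℝ[X]) = 4 := rfl
    rw [h1, h2, h3]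
    ring
  have e1 : p + (q + 1) = (p + q) + 1 := by ring
  have e2 : p + 1 + q = (p + q) + 1 := by ring
  rw [K, h, coeff_sub, e1, coeff_C_mul, coeff_X_mul, K, K, e2]

theorem K_zero (p : ℕ) : K p 0 = ((2 * p).choose p : ℝ) := by
  rw [K, mul_zero, pow_zero, mul_one, add_zero]
  have := coeff_X_add_one_pow ℝ (2 * p) p
  rw [this]

theorem K_eq (q : ℕ) : ∀ p : ℕ, K p q = (-1) ^ q * (((2 * p).factorial : ℝ) * (2 * q).factorial /
    (p.factorial * q.factorial * (p + q).factorial)) := by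
  induction q with
  | zero =>
    intro p
    have h : ((2 * p).choose p : ℝ) = ((2 * p).factorial : ℝ) / (p.factorial * p.factorial) := by
      rw [Nat.cast_choose ℝ (by omega : p ≤ 2 * p), show 2 * p - p = p by omega]
    rw [K_zero, h]
    simp
  | succ q ih =>
    intro p
    rw [K_succ, ih p, ih (p + 1)]
    have h1 : ((2 * (p + 1)).factorial : ℝ) = (2 * p + 2) * (2 * p + 1) * (2 * p).factorial := by
      rw [show 2 * (p + 1) = (2 * p + 1) + 1 by ring, Nat.factorial_succ, Nat.factorial_succ]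
      push_cast
      ring
    have h2 : ((2 * (q + 1)).factorial : ℝ) = (2 * q + 2) * (2 * q + 1) * (2 * q).factorial := by
      rw [show 2 * (q + 1) = (2 * q + 1) + 1 by ring, Nat.factorial_succ, Nat.factorial_succ]
      push_cast
      ring
    have h3 : ((p + 1).factorial : ℝ) = (p + 1) * p.factorial := by
      rw [Nat.factorial_succ]; push_cast; ring
    have h4 : ((q + 1).factorial : ℝ) = (q + 1) * q.factorial := by
      rw [Nat.factorial_succ]; push_cast; ring
    have h5 : ((p + (q + 1)).factorial : ℝ) = (p + q + 1) * (p + q).factorial := by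
      rw [show p + (q + 1) = (p + q) + 1 by ring, Nat.factorial_succ]; push_cast; ring
    have h6 : ((p + 1 + q).factorial : ℝ) = (p + q + 1) * (p + q).factorial := by
      rw [show p + 1 + q = (p + q) + 1 by ring, Nat.factorial_succ]; push_cast; ring
    rw [h1, h2, h3, h4, h5, h6, pow_succ]
    have g1 : (0 : ℝ) < p.factorial := by exact_mod_cast Nat.factorial_pos _
    have g2 : (0 : ℝ) < q.factorial := by exact_mod_cast Nat.factorial_pos _
    have g3 : (0 : ℝ) < (p + q).factorial := by exact_mod_cast Nat.factorial_pos _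
    have g4 : (0 : ℝ) < (p : ℝ) + 1 := by positivity
    have g5 : (0 : ℝ) < (q : ℝ) + 1 := by positivity
    have g6 : (0 : ℝ) < (p : ℝ) + q + 1 := by positivity
    field_simp
    ring

theorem K_sign (p q : ℕ) : 0 ≤ (-1) ^ q * K p q := by
  rw [K_eq, ← mul_assoc, ← mul_pow]
  simp only [mul_neg, mul_one, neg_neg, one_pow, one_mul]
  positivity

theorem abs_K (p q : ℕ) : |K p q| = (-1) ^ q * K p q := by
  have h := K_sign p q
  rcases Nat.even_or_odd q with hq | hq
  · rw [hq.neg_one_pow, one_mul] at h ⊢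
    exact abs_of_nonneg h
  · rw [hq.neg_one_pow, neg_one_mul] at h ⊢
    exact abs_of_nonpos (by linarith)

/-! ### the coefficients of `B_k` -/

/-- the coefficients of `B_k` with respect to `(X+1)^(k-1-2j) (X-1)^(2j)` -/
noncomputable def bc (x y : ℝ) : ℕ → ℕ → ℝ
  | 0, _ => 0
  | 1, 0 => 1
  | 1, _ + 1 => 0
  | k + 2, 0 => x * bc x y (k + 1) 0
  | k + 2, j + 1 => x * bc x y (k + 1) (j + 1) + y * bc x y k j

theorem bc_eq_zero (x y : ℝ) (k : ℕ) : ∀ j, k ≤ 2 * j → bc x y k j = 0 := by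
  induction k using Nat.strong_induction_on with
  | _ k ih =>
    match k with
    | 0 => intro j _; simp [bc]
    | 1 =>
      intro j hj
      obtain ⟨j', rfl⟩ : ∃ j', j = j' + 1 := ⟨j - 1, by omega⟩
      simp [bc]
    | k + 2 =>
      intro j hj
      obtain ⟨j', rfl⟩ : ∃ j', j = j' + 1 := ⟨j - 1, by omega⟩
      rw [bc, ih (k + 1) (by omega) (j' + 1) (by omega), ih k (by omega) j' (by omega)]
      simp

theorem B_eq_sum (lam c : ℝ) (k : ℕ) (m : ℕ) (hm : k ≤ m) : B lam c k =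
    ∑ j ∈ range m, C (bc (-(2 * c / lam)) (1 / lam) k j) *
      ((X + 1) ^ (k - 1 - 2 * j) * (X - 1) ^ (2 * j)) := by
  induction k using Nat.strong_induction_on generalizing m with
  | _ k ih =>
    match k with
    | 0 =>
      rw [B]
      symm
      exact sum_eq_zero fun j _ => by simp [bc]
    | 1 =>
      obtain ⟨m', rfl⟩ : ∃ m', m = m' + 1 := ⟨m - 1, by omega⟩
      rw [B, sum_range_succ']
      have : ∑ j ∈ range m', C (bc (-(2 * c / lam)) (1 / lam) 1 (j + 1)) *
        ((X + 1 : ℝ[X]) ^ (1 - 1 - 2 * (j + 1)) * (X - 1) ^ (2 * (j + 1))) = 0 :=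
        sum_eq_zero fun j _ => by simp [bc]
      rw [this]
      simp [bc]
    | k + 2 =>
      obtain ⟨m', rfl⟩ : ∃ m', m = m' + 1 := ⟨m - 1, by omega⟩
      rw [B, ih (k + 1) (by omega) (m' + 1) (by omega), ih k (by omega) m' (by omega)]
      rw [sum_range_succ' _ m', sum_range_succ' _ m']
      have e0 : C (bc (-(2 * c / lam)) (1 / lam) (k + 2) 0) *
          ((X + 1 : ℝ[X]) ^ (k + 2 - 1 - 2 * 0) * (X - 1) ^ (2 * 0)) =
          C (-(2 * c / lam)) * ((X + 1) * (C (bc (-(2 * c / lam)) (1 / lam) (k + 1) 0) *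
          ((X + 1 : ℝ[X]) ^ (k + 1 - 1 - 2 * 0) * (X - 1) ^ (2 * 0)))) := by
        rw [bc, C_mul]
        simp only [Nat.add_sub_cancel, mul_zero, Nat.sub_zero, pow_zero, mul_one]
        have : k + 2 - 1 = k + 1 := by omega
        rw [this, pow_succ]
        ring
      rw [e0, mul_add (X + 1 : ℝ[X]), mul_add (C (-(2 * c / lam))), add_right_comm]
      congr 1
      rw [mul_sum, mul_sum, mul_sum, mul_sum, ← sum_add_distrib]
      refine sum_congr rfl fun j _ => ?_
      have hA : C (-(2 * c / lam)) * ((X + 1 : ℝ[X]) *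
          (C (bc (-(2 * c / lam)) (1 / lam) (k + 1) (j + 1)) *
          ((X + 1) ^ (k + 1 - 1 - 2 * (j + 1)) * (X - 1) ^ (2 * (j + 1))))) =
          C (-(2 * c / lam)) * C (bc (-(2 * c / lam)) (1 / lam) (k + 1) (j + 1)) *
          ((X + 1) ^ (k + 2 - 1 - 2 * (j + 1)) * (X - 1) ^ (2 * (j + 1))) := by
        by_cases hj : k + 1 ≤ 2 * (j + 1)
        · rw [bc_eq_zero _ _ _ _ hj]
          simp
        · have e1 : k + 2 - 1 - 2 * (j + 1) = (k + 1 - 1 - 2 * (j + 1)) + 1 := by omega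
          rw [e1, pow_succ]
          ring
      have hB : C (1 / lam) * ((X - 1 : ℝ[X]) ^ 2 *
          (C (bc (-(2 * c / lam)) (1 / lam) k j) *
          ((X + 1) ^ (k - 1 - 2 * j) * (X - 1) ^ (2 * j)))) =
          C (1 / lam) * C (bc (-(2 * c / lam)) (1 / lam) k j) *
          ((X + 1) ^ (k + 2 - 1 - 2 * (j + 1)) * (X - 1) ^ (2 * (j + 1))) := by
        by_cases hj : k ≤ 2 * j
        · rw [bc_eq_zero _ _ _ _ hj]
          simp
        · have e1 : k + 2 - 1 - 2 * (j + 1) = k - 1 - 2 * j := by omega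
          have e2 : 2 * (j + 1) = 2 * j + 2 := by ring
          rw [e1, e2, pow_add]
          ring
      rw [bc, C_add, C_mul, C_mul, add_mul (C (-(2 * c / lam)) * C _), ← hA, ← hB]

theorem P_eq (lam c : ℝ) {n : ℕ} (hn : 1 ≤ n) : P lam c n =
    ∑ j ∈ range (2 * n - 1), bc (-(2 * c / lam)) (1 / lam) (2 * n - 1) j *
      (if j < n then K (n - 1 - j) (j + 1) else 0) := by
  rw [P, B_eq_sum lam c (2 * n - 1) (2 * n - 1) le_rfl, mul_sum, finsetSum_coeff]
  refine sum_congr rfl fun j _ => ?_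
  by_cases hj : j < n
  · rw [if_pos hj]
    have e : (X - 1 : ℝ[X]) ^ 2 * (C (bc (-(2 * c / lam)) (1 / lam) (2 * n - 1) j) *
        ((X + 1) ^ (2 * n - 1 - 1 - 2 * j) * (X - 1) ^ (2 * j))) =
        C (bc (-(2 * c / lam)) (1 / lam) (2 * n - 1) j) *
        ((X + 1) ^ (2 * (n - 1 - j)) * (X - 1) ^ (2 * (j + 1))) := by
      have e1 : 2 * n - 1 - 1 - 2 * j = 2 * (n - 1 - j) := by omega
      have e2 : 2 * (j + 1) = 2 + 2 * j := by ring
      rw [e1, e2, pow_add]
      ring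
    rw [e, coeff_C_mul, K]
    congr 2
    omega
  · rw [if_neg hj, bc_eq_zero _ _ _ _ (by omega)]
    simp

/-! ### comparison -/

theorem bc_sign (k : ℕ) : ∀ j, 0 ≤ (-1) ^ j * bc 2 (-1) k j := by
  induction k using Nat.strong_induction_on with
  | _ k ih =>
    match k with
    | 0 => intro j; simp [bc]
    | 1 =>
      intro j
      cases j with
      | zero => simp [bc]
      | succ j => simp [bc]
    | k + 2 =>
      intro j
      cases j with
      | zero =>
        have := ih (k + 1) (by omega) 0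
        rw [bc]
        simp only [pow_zero, one_mul] at this ⊢
        positivity
      | succ j =>
        have h1 := ih (k + 1) (by omega) (j + 1)
        have h2 := ih k (by omega) j
        rw [bc]
        have : (-1 : ℝ) ^ (j + 1) * (2 * bc 2 (-1) (k + 1) (j + 1) + -1 * bc 2 (-1) k j) =
            2 * ((-1) ^ (j + 1) * bc 2 (-1) (k + 1) (j + 1)) + (-1) ^ j * bc 2 (-1) k j := by
          rw [pow_succ]; ring
        rw [this]
        positivity

theorem bc_le {x y : ℝ} (hx : |x| ≤ 2) (hy : |y| ≤ 1) (k : ℕ) :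
    ∀ j, |bc x y k j| ≤ (-1) ^ j * bc 2 (-1) k j := by
  induction k using Nat.strong_induction_on with
  | _ k ih =>
    match k with
    | 0 => intro j; simp [bc]
    | 1 =>
      intro j
      cases j with
      | zero => simp [bc]
      | succ j => simp [bc]
    | k + 2 =>
      intro j
      cases j with
      | zero =>
        have h1 := ih (k + 1) (by omega) 0
        rw [bc, bc, abs_mul]
        simp only [pow_zero, one_mul] at h1 ⊢
        exact mul_le_mul hx h1 (abs_nonneg _) (by norm_num)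
      | succ j =>
        have h1 := ih (k + 1) (by omega) (j + 1)
        have h2 := ih k (by omega) j
        rw [bc, bc]
        have : (-1 : ℝ) ^ (j + 1) * (2 * bc 2 (-1) (k + 1) (j + 1) + -1 * bc 2 (-1) k j) =
            2 * ((-1) ^ (j + 1) * bc 2 (-1) (k + 1) (j + 1)) +
              1 * ((-1) ^ j * bc 2 (-1) k j) := by
          rw [pow_succ]; ring
        rw [this]
        refine (abs_add_le _ _).trans (add_le_add ?_ ?_)
        · rw [abs_mul]
          exact mul_le_mul hx h1 (abs_nonneg _) (by norm_num)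
        · rw [abs_mul]
          exact mul_le_mul hy h2 (abs_nonneg _) (by norm_num)

theorem P_model {n : ℕ} (hn : 1 ≤ n) : P (-1) 1 n =
    -∑ j ∈ range (2 * n - 1), ((-1) ^ j * bc 2 (-1) (2 * n - 1) j) *
      (if j < n then |K (n - 1 - j) (j + 1)| else 0) := by
  rw [P_eq _ _ hn, ← sum_neg_distrib]
  have e1 : -(2 * (1 : ℝ) / -1) = 2 := by norm_num
  have e2 : (1 : ℝ) / -1 = -1 := by norm_num
  rw [e1, e2]
  refine sum_congr rfl fun j _ => ?_
  split_ifs with hj
  · rw [abs_K, pow_succ]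
    have : ((-1 : ℝ) ^ j) * (-1) ^ j = 1 := by rw [← mul_pow]; simp
    linear_combination (-bc 2 (-1) (2 * n - 1) j * K (n - 1 - j) (j + 1)) * this
  · simp

/-- **the bound** -/
theorem abs_P_le {n : ℕ} (hn : 1 ≤ n) {lam c : ℝ} (hl : 1 ≤ |lam|) (hc : |c| ≤ 1) :
    |P lam c n| ≤ -P (-1) 1 n := by
  have hl0 : 0 < |lam| := lt_of_lt_of_le one_pos hl
  have hx : |(-(2 * c / lam))| ≤ 2 := by
    rw [abs_neg, abs_div, abs_mul, abs_two, div_le_iff₀ hl0]
    nlinarith [abs_nonneg c]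
  have hy : |1 / lam| ≤ 1 := by
    rw [abs_div, abs_one, div_le_iff₀ hl0, one_mul]
    exact hl
  rw [P_model hn, neg_neg, P_eq _ _ hn]
  refine (abs_sum_le_sum_abs _ _).trans (sum_le_sum fun j _ => ?_)
  rw [abs_mul]
  split_ifs with hj
  · exact mul_le_mul_of_nonneg_right (bc_le hx hy _ _) (abs_nonneg _)
  · simp

/-! ### the value at the model -/

theorem B_model_comp (k : ℕ) : C 4 * X * (B (-1) 1 k).comp (X ^ 2) =
    (X + 1) ^ (2 * k) - (X - 1) ^ (2 * k) := by
  induction k using Nat.strong_induction_on with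
  | _ k ih =>
    match k with
    | 0 => simp [B]
    | 1 =>
      have h3 : (C 4 : ℝ[X]) = 4 := rfl
      rw [B, h3]
      simp only [one_comp]
      ring
    | k + 2 =>
      have h1 := ih (k + 1) (by omega)
      have h2 := ih k (by omega)
      have e1 : -(2 * (1 : ℝ) / -1) = 2 := by norm_num
      have e2 : (1 : ℝ) / -1 = -1 := by norm_num
      rw [B, e1, e2]
      have h4 : (C 2 : ℝ[X]) = 2 := rfl
      have h5 : (C (-1) : ℝ[X]) = -1 := by simp
      simp only [add_comp, mul_comp, sub_comp, pow_comp, X_comp, one_comp, C_comp]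
      rw [h4, h5]
      have e3 : C 4 * X * (2 * ((X ^ 2 + 1) * (B (-1) 1 (k + 1)).comp (X ^ 2)) +
          -1 * ((X ^ 2 - 1) ^ 2 * (B (-1) 1 k).comp (X ^ 2))) =
          2 * (X ^ 2 + 1) * (C 4 * X * (B (-1) 1 (k + 1)).comp (X ^ 2)) -
          (X ^ 2 - 1) ^ 2 * (C 4 * X * (B (-1) 1 k).comp (X ^ 2)) := by ring
      rw [e3, h1, h2]
      have e4 : 2 * (k + 2) = 2 * k + 4 := by ring
      have e5 : 2 * (k + 1) = 2 * k + 2 := by ring
      rw [e4, e5, pow_add, pow_add, pow_add, pow_add]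
      ring

theorem coeff_comp_sq (p : ℝ[X]) (n : ℕ) : (p.comp (X ^ 2)).coeff (2 * n) = p.coeff n := by
  rw [← expand_eq_comp_X_pow]
  exact coeff_expand_mul' (p := 2) (by norm_num) p n

theorem coeff_diff (M j : ℕ) (hM : Even M) : ((X + 1 : ℝ[X]) ^ M - (X - 1) ^ M).coeff j =
    (1 - (-1) ^ j) * (M.choose j : ℝ) := by
  have h1 : (X - 1 : ℝ[X]) = X + C (-1) := by simp [sub_eq_add_neg]
  rw [coeff_sub, coeff_X_add_one_pow, h1, coeff_X_add_C_pow]
  by_cases hj : j ≤ M
  · have h2 : (-1 : ℝ) ^ (M - j) = (-1) ^ j := by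
      have h3 : (-1 : ℝ) ^ (M - j) * (-1) ^ j = 1 := by
        rw [← pow_add, Nat.sub_add_cancel hj, hM.neg_one_pow]
      have h4 : ((-1 : ℝ) ^ j) * (-1) ^ j = 1 := by rw [← mul_pow]; simp
      have h5 : (-1 : ℝ) ^ j ≠ 0 := by positivity
      exact mul_right_cancel₀ h5 (h3.trans h4.symm)
    rw [h2]; ring
  · rw [Nat.choose_eq_zero_of_lt (by omega)]
    simp

theorem P_model_value {n : ℕ} (hn : 1 ≤ n) : -P (-1) 1 n =
    ((4 * n - 2).choose (2 * n - 1) : ℝ) - ((4 * n - 2).choose (2 * n + 1) : ℝ) := by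
  have h1 : 4 * P (-1) 1 n = ((C 4 : ℝ[X]) * X * (((X - 1) ^ 2 * B (-1) 1 (2 * n - 1)).comp
      (X ^ 2))).coeff (2 * n + 1) := by
    rw [mul_assoc, coeff_C_mul, coeff_X_mul, coeff_comp_sq, P]
  have h2 : C 4 * X * (((X - 1) ^ 2 * B (-1) 1 (2 * n - 1)).comp (X ^ 2)) =
      X ^ 4 * ((X + 1) ^ (4 * n - 2) - (X - 1) ^ (4 * n - 2)) -
      C 2 * (X ^ 2 * ((X + 1) ^ (4 * n - 2) - (X - 1) ^ (4 * n - 2))) +
      ((X + 1) ^ (4 * n - 2) - (X - 1) ^ (4 * n - 2)) := by
    have h3 := B_model_comp (2 * n - 1)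
    have h4 : 2 * (2 * n - 1) = 4 * n - 2 := by omega
    rw [h4] at h3
    rw [← h3]
    simp only [mul_comp, sub_comp, pow_comp, X_comp, one_comp]
    have h5 : (C 2 : ℝ[X]) = 2 := rfl
    rw [h5]
    ring
  have hM : Even (4 * n - 2) := ⟨2 * n - 1, by omega⟩
  rw [h2, coeff_add, coeff_sub, coeff_C_mul, coeff_diff _ _ hM, coeff_X_pow_mul',
    coeff_X_pow_mul', coeff_diff _ _ hM, coeff_diff _ _ hM] at h1
  have o1 : (-1 : ℝ) ^ (2 * n + 1) = -1 := Odd.neg_one_pow ⟨n, rfl⟩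
  have o2 : (-1 : ℝ) ^ (2 * n + 1 - 2) = -1 := Odd.neg_one_pow ⟨n - 1, by omega⟩
  have e2 : 2 * n + 1 - 2 = 2 * n - 1 := by omega
  have hle : 2 ≤ 2 * n + 1 := by omega
  rw [if_pos hle, o1, o2, e2] at h1
  by_cases h4 : 4 ≤ 2 * n + 1
  · have o3 : (-1 : ℝ) ^ (2 * n + 1 - 4) = -1 := Odd.neg_one_pow ⟨n - 2, by omega⟩
    rw [if_pos h4, o3] at h1
    have e3 : (4 * n - 2).choose (2 * n + 1 - 4) = (4 * n - 2).choose (2 * n + 1) :=
      Nat.choose_symm_of_eq_add (by omega)
    rw [e3] at h1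
    linarith
  · have hn1 : n = 1 := by omega
    subst hn1
    rw [if_neg h4] at h1
    norm_num [Nat.choose] at h1 ⊢
    linarith

theorem choose_diff {n : ℕ} (hn : 1 ≤ n) :
    (((4 * n - 2).choose (2 * n - 1) : ℝ) - ((4 * n - 2).choose (2 * n + 1) : ℝ)) * (2 * n + 1) =
      ((4 * n).choose (2 * n) : ℝ) := by
  obtain ⟨m, rfl⟩ : ∃ m, n = m + 1 := ⟨n - 1, by omega⟩
  have e1 : 4 * (m + 1) - 2 = 4 * m + 2 := by omega
  have e2 : 2 * (m + 1) - 1 = 2 * m + 1 := by omega
  have e3 : 2 * (m + 1) + 1 = 2 * m + 3 := by omega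
  have e4 : 4 * (m + 1) = 4 * m + 4 := by omega
  have e5 : 2 * (m + 1) = 2 * m + 2 := by omega
  rw [e1, e2, e3, e4, e5]
  have c1 : ((4 * m + 2).choose (2 * m + 2) : ℝ) * (2 * m + 2) =
      ((4 * m + 2).choose (2 * m + 1) : ℝ) * (2 * m + 1) := by
    have := Nat.choose_succ_right_eq (4 * m + 2) (2 * m + 1)
    have h : 4 * m + 2 - (2 * m + 1) = 2 * m + 1 := by omega
    rw [h] at this
    exact_mod_cast this
  have c2 : ((4 * m + 2).choose (2 * m + 3) : ℝ) * (2 * m + 3) =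
      ((4 * m + 2).choose (2 * m + 2) : ℝ) * (2 * m) := by
    have := Nat.choose_succ_right_eq (4 * m + 2) (2 * m + 2)
    have h : 4 * m + 2 - (2 * m + 2) = 2 * m := by omega
    rw [h] at this
    exact_mod_cast this
  -- `binom (4m+4) (2m+2) = 2 binom (4m+3) (2m+1)`, `binom (4m+3) (2m+2) (2m+2) = (4m+3) binom (4m+2) (2m+1)`
  have c3 : ((4 * m + 4).choose (2 * m + 2) : ℝ) * (2 * m + 2) =
      (4 * m + 4) * ((4 * m + 3).choose (2 * m + 1) : ℝ) := by
    have := Nat.add_one_mul_choose_eq (4 * m + 3) (2 * m + 1)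
    have h : (4 * m + 4) * (4 * m + 3).choose (2 * m + 1) =
        (4 * m + 4).choose (2 * m + 2) * (2 * m + 2) := this
    exact_mod_cast h.symm
  have c4 : ((4 * m + 3).choose (2 * m + 2) : ℝ) * (2 * m + 2) =
      (4 * m + 3) * ((4 * m + 2).choose (2 * m + 1) : ℝ) := by
    have := Nat.add_one_mul_choose_eq (4 * m + 2) (2 * m + 1)
    have h : (4 * m + 3) * (4 * m + 2).choose (2 * m + 1) =
        (4 * m + 3).choose (2 * m + 2) * (2 * m + 2) := this
    exact_mod_cast h.symm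
  have c5 : (4 * m + 3).choose (2 * m + 1) = (4 * m + 3).choose (2 * m + 2) :=
    Nat.choose_symm_of_eq_add (by omega)
  rw [c5] at c3
  push_cast
  have hm : (0 : ℝ) < 2 * m + 2 := by positivity
  have hm3 : (0 : ℝ) < 2 * m + 3 := by positivity
  generalize ((4 * m + 2).choose (2 * m + 1) : ℝ) = a at *
  generalize ((4 * m + 2).choose (2 * m + 2) : ℝ) = b at *
  generalize ((4 * m + 2).choose (2 * m + 3) : ℝ) = c at *
  generalize ((4 * m + 3).choose (2 * m + 2) : ℝ) = d at *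
  generalize ((4 * m + 4).choose (2 * m + 2) : ℝ) = f at *
  have hb : b = a * (2 * m + 1) / (2 * m + 2) := by rw [eq_div_iff hm.ne']; exact c1
  have hc : c = b * (2 * m) / (2 * m + 3) := by rw [eq_div_iff hm3.ne']; exact c2
  have hd : d = (4 * m + 3) * a / (2 * m + 2) := by rw [eq_div_iff hm.ne']; exact c4
  have hf : f = (4 * m + 4) * d / (2 * m + 2) := by rw [eq_div_iff hm.ne']; exact c3
  rw [hf, hd, hc, hb]
  field_simp
  ring

/-- **the bound, explicit** -/
theorem abs_P_le' {n : ℕ} (hn : 1 ≤ n) {lam c : ℝ} (hl : 1 ≤ |lam|) (hc : |c| ≤ 1) :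
    |P lam c n| ≤ ((4 * n).choose (2 * n) : ℝ) / (2 * n + 1) := by
  refine (abs_P_le hn hl hc).trans ?_
  rw [P_model_value hn, le_div_iff₀ (by positivity)]
  exact (choose_diff hn).le

end Vale.Agent.P231.A3
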