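import Vale.Agent.P231.WN.Num
import Vale.Agent.P231.A3.Num

/-! # P231, stage 2 (`l = 3`), block N3: the numbers of the quaternionic projective case -/

set_option maxSynthPendingDepth 3

open MeasureTheory
open scoped ENNReal

namespace Vale.Agent.P231.A3

noncomputable section

theorem integral_sin_pow_cos3 {n : ℕ} (hn : 1 ≤ n) {D : ℝ} (hD : 0 < D) :
    ∫ r in (0 : ℝ)..D, (2 * D / Real.pi * Real.sin (Real.pi * r / (2 * D))) ^ (4 * n - 1) *
      Real.cos (Real.pi * r / (2 * D)) ^ 3 =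
      (2 * D / Real.pi) ^ (4 * n) / (4 * n * (2 * n + 1)) := by
  have hpi := Real.pi_pos
  have hn' : (0 : ℝ) < n := by exact_mod_cast hn
  -- primitive: `(2D/π)^(4n) (sin^(4n)/(4n) - sin^(4n+2)/(4n+2))`
  have key : ∀ r : ℝ, HasDerivAt
      (fun r : ℝ => (2 * D / Real.pi) ^ (4 * n) *
        (Real.sin (Real.pi * r / (2 * D)) ^ (4 * n) / (4 * n) -
          Real.sin (Real.pi * r / (2 * D)) ^ (4 * n + 2) / (4 * n + 2)))
      ((2 * D / Real.pi * Real.sin (Real.pi * r / (2 * D))) ^ (4 * n - 1) *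
        Real.cos (Real.pi * r / (2 * D)) ^ 3) r := by
    intro r
    have h1 : HasDerivAt (fun r : ℝ => Real.pi * r / (2 * D)) (Real.pi / (2 * D)) r := by
      have := ((hasDerivAt_id r).const_mul Real.pi).div_const (2 * D)
      simpa using this
    have h2 := (h1.sin.pow (4 * n)).div_const (4 * (n : ℝ))
    have h3 := (h1.sin.pow (4 * n + 2)).div_const (4 * (n : ℝ) + 2)
    have h4 := (h2.sub h3).const_mul ((2 * D / Real.pi) ^ (4 * n))
    refine h4.congr_deriv ?_
    have e1 : (2 * D / Real.pi) ^ (4 * n) = (2 * D / Real.pi) ^ (4 * n - 1) *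
        (2 * D / Real.pi) := by
      rw [← pow_succ]; congr 1; omega
    have e2 : 4 * n + 2 - 1 = (4 * n - 1) + 2 := by omega
    have e3 : Real.sin (Real.pi * r / (2 * D)) ^ 2 = 1 - Real.cos (Real.pi * r / (2 * D)) ^ 2 :=
      Real.sin_sq _
    rw [e2, pow_add, e3, mul_pow, e1]
    push_cast
    field_simp
    ring
  have hcont : Continuous (fun r : ℝ =>
      (2 * D / Real.pi * Real.sin (Real.pi * r / (2 * D))) ^ (4 * n - 1) *
        Real.cos (Real.pi * r / (2 * D)) ^ 3) := by fun_prop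
  rw [intervalIntegral.integral_eq_sub_of_hasDerivAt (fun r _ => key r)
    (hcont.intervalIntegrable _ _)]
  have h4 : Real.pi * D / (2 * D) = Real.pi / 2 := by field_simp
  rw [h4, Real.sin_pi_div_two]
  have h5 : 4 * n ≠ 0 := by omega
  have h6 : 4 * n + 2 ≠ 0 := by omega
  simp only [one_pow, mul_zero, zero_div, Real.sin_zero, zero_pow h5, zero_pow h6, sub_zero]
  field_simp
  ring

/-- **Block N3.** -/
theorem number3 {n : ℕ} (hn : 1 ≤ n) {D : ℝ} (hD : 0 < D) :
    ((4 * n).choose (2 * n) : ℝ) / (2 * n + 1) * (2 * D) ^ (4 * n) /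
      (((4 * n - 1).factorial : ℝ) * (2 * √Real.pi ^ (4 * n) / Real.Gamma (2 * n : ℕ))) =
      Blaschke.modelVolume (4 * n - 1) 3 D := by
  have hpi := Real.pi_pos
  have hn' : (0 : ℝ) < n := by exact_mod_cast hn
  unfold Blaschke.modelVolume
  rw [integral_sin_pow_cos3 hn hD]
  have h1 : 4 * n - 1 + 1 = 4 * n := by omega
  have h2 : (((4 * n - 1 : ℕ) : ℝ) + 1) / 2 = ((2 * n : ℕ) : ℝ) := by
    have : (((4 * n - 1 : ℕ) : ℝ) + 1) = ((4 * n - 1 + 1 : ℕ) : ℝ) := by push_cast; ring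
    rw [this, h1]; push_cast; ring
  have hs := WN.sphere_vol (n := 2 * n) (by omega)
  rw [show 2 * (2 * n) = 4 * n by ring] at hs
  rw [h1, h2, hs]
  -- factorial identity
  have h3 := WN.fact_id (n := 2 * n) (by omega)
  rw [show 2 * (2 * n) = 4 * n by ring] at h3
  have h4 : (0 : ℝ) < (4 * n - 1).factorial := by exact_mod_cast Nat.factorial_pos _
  have h5 : (0 : ℝ) < (2 * n - 1).factorial := by exact_mod_cast Nat.factorial_pos _
  have h6 : ((2 * n).factorial : ℝ) = 2 * n * (2 * n - 1).factorial := by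
    obtain ⟨m, hm⟩ : ∃ m, 2 * n = m + 1 := ⟨2 * n - 1, by omega⟩
    have hm' : (2 * (n : ℝ)) = ((m + 1 : ℕ) : ℝ) := by rw [← hm]; push_cast; ring
    rw [hm', hm, Nat.factorial_succ]
    push_cast
    simp
  rw [h6] at h3
  rw [div_pow]
  have h7 : Real.pi ^ (4 * n) = Real.pi ^ (2 * n) * Real.pi ^ (2 * n) := by
    rw [← pow_add]; congr 1; ring
  rw [h7]
  have h8 : (0 : ℝ) < Real.pi ^ (2 * n) := by positivity
  have h9 : (0 : ℝ) < (2 * D) ^ (4 * n) := by positivity
  generalize (2 * D) ^ (4 * n) = X at *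
  generalize Real.pi ^ (2 * n) = P at *
  generalize ((4 * n - 1).factorial : ℝ) = F at *
  generalize ((2 * n - 1).factorial : ℝ) = G at *
  generalize (((4 * n).choose (2 * n) : ℕ) : ℝ) = C at *
  have h10 : C * (2 * n * G) * G * (X * P) = 2 * F * (X * P) := by rw [h3]
  field_simp
  nlinarith [h10]

end

end Vale.Agent.P231.A3
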