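import Vale.Agent.P231.H584.Side
import Vale.Agent.P231.WA.Inv

/-!
# P231, stages 2 and 3: the quadratic relation of the class `b`
-/

set_option linter.unusedSectionVars false
set_option linter.unusedVariables false

open Set Module Filter Topology
open scoped ContDiff

namespace Vale.Agent.P231.A3

open Fm W H584

section

variable {X : Type*} {D : Dif X} {T : ℝ} {Φ : X × ℝ → X} (h : IsFlow D T Φ) {α : Form D}

/-- one step of the Gysin sequence -/
theorem step (hT : T ≠ 0) (hα : Form.pull Φ h.map α = pr α + dt) (hαo : α.sg = -α) {k : ℕ}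
    {w η : Form D} (hw : Basic Φ h.map w) (hdeg : Form.IsDeg (k + 2) w) (hη : w = η.d) :
    ∃ ζ ρ : Form D, Basic Φ h.map ζ ∧ ζ.d = 0 ∧ Form.IsDeg k ζ ∧ Basic Φ h.map ρ ∧
      w = (T⁻¹ • α.d) * ζ + ρ.d := by
  set τ := Form.part (k + 1) η with hτ
  have h1 : w = τ.d := by
    rw [hτ, ← Form.part_succ_d, ← hη]
    exact hdeg.part_eq.symm
  have hb : Basic Φ h.map τ.d := by rw [← h1]; exact hw
  have h2 := gysin_d h hα hαo hb
  refine ⟨J Φ h.map T τ, T⁻¹ • J Φ h.map T (α * τ), J_basic h _, ?_, ?_,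
    Basic.smul _ (J_basic h _), ?_⟩
  · have h3 := J_d h τ
    rw [J_of_basic T hb] at h3
    exact neg_eq_zero.1 h3.symm
  · have h4 := WA.part_J h.map k T (Form.part (k + 1) η)
    change Form.part k _ = _
    rw [hτ, h4, Form.part_part_self]
  · have h5 := congrArg (fun v : Form D => T⁻¹ • v) h2
    simp only [smul_smul, inv_mul_cancel₀ hT, one_smul, smul_add] at h5
    rw [h1, h5, Form.d_smul, smul_mul_assoc]

/-- the closed two-form `T⁻¹ dα` is basic -/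
theorem basic_e (hα : Form.pull Φ h.map α = pr α + dt) : Basic Φ h.map (T⁻¹ • α.d) := by
  refine Basic.smul _ ?_
  rw [basic_def, Form.pull_d, hα, Form.d_add, WA.d_dt, add_zero, ← pr_d]

theorem e_closed : (T⁻¹ • α.d : Form D).d = 0 := by rw [Form.d_smul, Form.d_d, smul_zero]

theorem e_even (hαo : α.sg = -α) : (T⁻¹ • α.d : Form D).sg = T⁻¹ • α.d := by
  rw [Form.sg_smul, d_even hαo]

theorem pow_closed {e : Form D} (he : e.d = 0) (hs : e.sg = e) (j : ℕ) :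
    (e ^ j).d = 0 ∧ (e ^ j).sg = e ^ j := by
  induction j with
  | zero => exact ⟨by rw [pow_zero, Form.d_one], by rw [pow_zero, Form.sg_one]⟩
  | succ j ih =>
    rw [pow_succ]
    exact ⟨mul_closed ih.1 he, mul_even ih.2 hs⟩

theorem mul_d {e : Form D} (he : e.d = 0) (hs : e.sg = e) (j : ℕ) (u : Form D) :
    e ^ j * u.d = (e ^ j * u).d := by
  rw [Form.d_mul, (pow_closed he hs j).1, (pow_closed he hs j).2, zero_mul, zero_add]

/-- several steps, when there is no cohomology in the intermediate degrees -/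
theorem down (hT : T ≠ 0) (hα : Form.pull Φ h.map α = pr α + dt) (hαo : α.sg = -α) {k : ℕ}
    (j : ℕ) (H : ∀ i, i < j → ∀ w : Form D, Form.IsDeg (k + 2 * i + 2) w → w.d = 0 →
      ∃ η : Form D, w = η.d)
    {w : Form D} (hw : Basic Φ h.map w) (hwd : w.d = 0) (hdeg : Form.IsDeg (k + 2 * j) w) :
    ∃ ζ ρ : Form D, Basic Φ h.map ζ ∧ ζ.d = 0 ∧ Form.IsDeg k ζ ∧ Basic Φ h.map ρ ∧
      w = (T⁻¹ • α.d) ^ j * ζ + ρ.d := by
  induction j generalizing w with
  | zero => exact ⟨w, 0, hw, hwd, hdeg, Basic.zero, by rw [pow_zero, one_mul, Form.d_zero, add_zero]⟩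
  | succ j ih =>
    have hdeg' : Form.IsDeg ((k + 2 * j) + 2) w := by
      have h0 : k + 2 * (j + 1) = k + 2 * j + 2 := by ring
      rwa [h0] at hdeg
    obtain ⟨η, hη⟩ := H j (Nat.lt_succ_self j) w hdeg' hwd
    obtain ⟨ζ, ρ, h1, h2, h3, h4, h5⟩ := step h hT hα hαo hw hdeg' hη
    obtain ⟨ζ', ρ', h1', h2', h3', h4', h5'⟩ := ih (fun i hi => H i (hi.trans (Nat.lt_succ_self j)))
      h1 h2 h3
    refine ⟨ζ', (T⁻¹ • α.d) * ρ' + ρ, h1', h2', h3', Basic.add (Basic.mul (basic_e h hα) h4') h4, ?_⟩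
    have h6 := mul_d (e := T⁻¹ • α.d) e_closed (e_even hαo) 1 ρ'
    rw [pow_one] at h6
    rw [h5, h5', mul_add, ← mul_assoc, ← pow_succ', h6, Form.d_add, add_assoc]

/-- **the quadratic relation**, before symmetrization -/
theorem quad (hT : T ≠ 0) (hα : Form.pull Φ h.map α = pr α + dt) (hαo : α.sg = -α) {s : ℕ}
    {b G : Form D} (hb : Basic Φ h.map b) (hbd : b.d = 0) (hbdeg : Form.IsDeg (2 * (s + 1)) b)
    (hG : Basic Φ h.map G) (hGd : G.d = 0) (hGdeg : Form.IsDeg (2 * (s + 2)) G)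
    (H0 : ∀ w : Form D, Form.IsDeg 0 w → w.d = 0 → ∃ c : ℝ, w = c • 1)
    (Hlow : ∀ i, i < s → ∀ w : Form D, Form.IsDeg (2 * i + 2) w → w.d = 0 →
      ∃ η : Form D, w = η.d)
    (Hb : ∀ w : Form D, Form.IsDeg (2 * (s + 1)) w → w.d = 0 →
      ∃ (c : ℝ) (η : Form D), w = c • b + η.d)
    (HG : ∀ w : Form D, Form.IsDeg (2 * (s + 2)) w → w.d = 0 →
      ∃ (c : ℝ) (η : Form D), w = c • G + η.d)
    (Hhigh : ∀ i, i < s → ∀ w : Form D, Form.IsDeg (2 * (s + 2) + 2 * i + 2) w → w.d = 0 →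
      ∃ η : Form D, w = η.d) :
    ∃ (c₁ c₂ c₃ : ℝ) (ρ : Form D), Basic Φ h.map ρ ∧
      b ^ 2 = (T⁻¹ • α.d) ^ s * (c₁ • G + c₂ • ((T⁻¹ • α.d) * b)) +
        c₃ • (T⁻¹ • α.d) ^ (2 * (s + 1)) + ρ.d := by
  set e : Form D := T⁻¹ • α.d with he
  have hee : e.sg = e := e_even hαo
  have hed : e.d = 0 := e_closed
  have heb : Basic Φ h.map e := basic_e h hα
  have hbe : b.sg = b := hbdeg.sg_of_even ⟨s + 1, by ring⟩
  have hb2 : Form.IsDeg (2 * (s + 2) + 2 * s) (b ^ 2) := by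
    have := hbdeg.pow 2
    have h0 : 2 * (s + 1) * 2 = 2 * (s + 2) + 2 * s := by ring
    rwa [h0] at this
  have hb2d : (b ^ 2).d = 0 := by rw [pow_two]; exact mul_closed hbd hbd
  obtain ⟨z₁, ρ₁, z1, z2, z3, z4, z5⟩ := down h hT hα hαo s Hhigh (Basic.pow hb 2) hb2d hb2
  obtain ⟨c₁, η₁, hη₁⟩ := HG z₁ z3 z2
  obtain ⟨z₂, ρ₂, y1, y2, y3, y4, y5⟩ := step (k := 2 * (s + 1)) (w := z₁ - c₁ • G) (η := η₁) h hT hα hαo
    (Basic.sub z1 (Basic.smul c₁ hG))
    (by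
      have h0 : 2 * (s + 1) + 2 = 2 * (s + 2) := by ring
      rw [h0]
      exact z3.sub (hGdeg.smul c₁)) (by rw [hη₁]; abel)
  obtain ⟨c₂, η₂, hη₂⟩ := Hb z₂ y3 y2
  obtain ⟨z₃, ρ₃, x1, x2, x3, x4, x5⟩ := step (k := 2 * s) (w := z₂ - c₂ • b) (η := η₂) h hT hα hαo
    (Basic.sub y1 (Basic.smul c₂ hb))
    (by
      have h0 : 2 * s + 2 = 2 * (s + 1) := by ring
      rw [h0]
      exact y3.sub (hbdeg.smul c₂)) (by rw [hη₂]; abel)
  obtain ⟨z₄, ρ₄, w1, w2, w3, w4, w5⟩ := down (k := 0) h hT hα hαo s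
    (fun i hi w hw hd => Hlow i hi w (by rwa [zero_add] at hw) hd) x1 x2
    (by rw [zero_add]; exact x3)
  obtain ⟨c₃, hc₃⟩ := H0 z₄ w3 w2
  rw [← he] at z5 y5 x5 w5
  have e1 : z₂ = c₂ • b + e * z₃ + ρ₃.d := by rw [add_assoc, ← x5]; abel
  have e2 : z₁ = c₁ • G + e * z₂ + ρ₂.d := by rw [add_assoc, ← y5]; abel
  have hm : ∀ (j : ℕ) (u : Form D), e ^ j * u.d = (e ^ j * u).d := mul_d hed hee
  have hm1 : ∀ u : Form D, e * u.d = (e * u).d := fun u => by
    have := hm 1 u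
    rwa [pow_one] at this
  refine ⟨c₁, c₂, c₃, e ^ (s + 2) * ρ₄ + e ^ (s + 1) * ρ₃ + e ^ s * ρ₂ + ρ₁,
    Basic.add (Basic.add (Basic.add (Basic.mul (Basic.pow heb _) w4) (Basic.mul (Basic.pow heb _) x4))
      (Basic.mul (Basic.pow heb _) y4)) z4, ?_⟩
  have q1 : e ^ s * (e * (e * (e ^ s * 1))) = e ^ (2 * (s + 1)) := by
    rw [mul_one, ← pow_succ', ← pow_succ', ← pow_add]
    congr 1
    ring
  have q2 : e ^ s * (e * (e * ρ₄.d)) = (e ^ (s + 2) * ρ₄).d := by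
    rw [← hm, pow_add, pow_two]
    simp only [mul_assoc]
  have q3 : e ^ s * (e * ρ₃.d) = (e ^ (s + 1) * ρ₃).d := by
    rw [← hm, pow_succ]
    simp only [mul_assoc]
  rw [z5, e2, e1, w5, hc₃]
  simp only [Form.d_add, mul_add, q1, q2, q3, hm s ρ₂, mul_smul_comm]
  have q4 : 2 * (s + 1) = 2 * s + 2 * 1 := by ring
  simp only [← q4]
  abel

/-- **the quadratic relation** -/
theorem rel (hT : T ≠ 0) (hα : Form.pull Φ h.map α = pr α + dt) (hαo : α.sg = -α) {s : ℕ}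
    {b G : Form D} (hb : Basic Φ h.map b) (hbd : b.d = 0) (hbdeg : Form.IsDeg (2 * (s + 1)) b)
    (hG : Basic Φ h.map G) (hGd : G.d = 0) (hGdeg : Form.IsDeg (2 * (s + 2)) G)
    {σ : X → X} (hσ : D.Map D σ) (hσφ : ∀ x t, σ (Φ (x, t)) = Φ (σ x, t))
    (hσσ : ∀ x, σ (σ x) = x)
    (hσα : Form.pull σ hσ α = α) (hσb : Form.pull σ hσ b = -b)
    {ρ₀ : Form D} (hρ₀ : Basic Φ h.map ρ₀)
    (hxy : G - Form.pull σ hσ G = (T⁻¹ • α.d) * b + ρ₀.d)
    (H0 : ∀ w : Form D, Form.IsDeg 0 w → w.d = 0 → ∃ c : ℝ, w = c • 1)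
    (Hlow : ∀ i, i < s → ∀ w : Form D, Form.IsDeg (2 * i + 2) w → w.d = 0 →
      ∃ η : Form D, w = η.d)
    (Hb : ∀ w : Form D, Form.IsDeg (2 * (s + 1)) w → w.d = 0 →
      ∃ (c : ℝ) (η : Form D), w = c • b + η.d)
    (HG : ∀ w : Form D, Form.IsDeg (2 * (s + 2)) w → w.d = 0 →
      ∃ (c : ℝ) (η : Form D), w = c • G + η.d)
    (Hhigh : ∀ i, i < s → ∀ w : Form D, Form.IsDeg (2 * (s + 2) + 2 * i + 2) w → w.d = 0 →
      ∃ η : Form D, w = η.d) :
    ∃ (a μ : ℝ) (ρ : Form D), Basic Φ h.map ρ ∧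
      b ^ 2 = a • (T⁻¹ • α.d) ^ (2 * (s + 1)) +
        μ • ((T⁻¹ • α.d) ^ s * (G + Form.pull σ hσ G)) + ρ.d := by
  obtain ⟨c₁, c₂, c₃, ρ, hρ, hq⟩ := quad h hT hα hαo hb hbd hbdeg hG hGd hGdeg H0 Hlow Hb HG Hhigh
  set e : Form D := T⁻¹ • α.d with he
  have hee : e.sg = e := e_even hαo
  have hed : e.d = 0 := e_closed
  have heb : Basic Φ h.map e := basic_e h hα
  set S : Form D →ₐ[ℝ] Form D := Form.pullA σ hσ with hS
  have hSd : ∀ w, S w.d = (S w).d := fun w => Form.pull_d σ hσ w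
  have hSα : S α = α := hσα
  have hSb : S b = -b := hσb
  have hSe : S e = e := by rw [he, map_smul, hSd, hSα]
  have hSS : ∀ w, S (S w) = w := fun w =>
    (pull_pull (k := fun b : X => b) hσ hσ (fun h => h) hσσ w).trans (Form.pull_id _ w)
  have hSbas : ∀ w, Basic Φ h.map w → Basic Φ h.map (S w) := by
    intro w hw
    rw [basic_def]
    have h1 : Form.pull Φ h.map (S w) = Form.pull (fun p : X × ℝ => (σ p.1, p.2)) (map_cyl hσ)
        (Form.pull Φ h.map w) := by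
      have hm : (D.prod (Dif.lin ℝ)).Map D (fun p : X × ℝ => σ (Φ p)) :=
        Dif.Map.comp (f := Φ) (g := σ) hσ h.map
      have h2 : Form.pull Φ h.map (S w) = Form.pull (fun p : X × ℝ => σ (Φ p)) hm w :=
        pull_pull h.map hσ hm (fun p => rfl) w
      rw [h2]
      exact (pull_pull (map_cyl hσ) h.map hm (fun p => (hσφ p.1 p.2).symm) w).symm
    rw [h1, hw, pull_pr hσ]
    rfl
  change b ^ 2 = _ at hq
  change G - S G = _ at hxy
  have hm : ∀ (j : ℕ) (u : Form D), e ^ j * u.d = (e ^ j * u).d := mul_d hed hee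
  have heb' : e * b = G - S G - ρ₀.d := by rw [hxy]; abel
  have hq1 : b ^ 2 = (c₁ + c₂) • (e ^ s * G) - c₂ • (e ^ s * S G) +
      c₃ • e ^ (2 * (s + 1)) + (ρ - c₂ • (e ^ s * ρ₀)).d := by
    rw [hq, heb', Form.d_sub, Form.d_smul, ← hm, mul_add, mul_smul_comm, mul_smul_comm, mul_sub,
      mul_sub]
    module
  set ρ' := ρ - c₂ • (e ^ s * ρ₀) with hρ'
  have hρ'b : Basic Φ h.map ρ' :=
    Basic.sub hρ (Basic.smul _ (Basic.mul (Basic.pow heb _) hρ₀))
  have hq2 : b ^ 2 = (c₁ + c₂) • (e ^ s * S G) - c₂ • (e ^ s * G) +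
      c₃ • e ^ (2 * (s + 1)) + (S ρ').d := by
    have h3 := congrArg S hq1
    rw [map_pow, hSb, neg_sq, map_add, map_add, map_sub, map_smul, map_smul, map_smul, map_mul,
      map_mul, map_pow, map_pow, hSe, hSS, hSd] at h3
    exact h3
  refine ⟨c₃, c₁ / 2, (1 / 2 : ℝ) • (ρ' + S ρ'), Basic.smul _ (Basic.add hρ'b (hSbas _ hρ'b)), ?_⟩
  have h4 : b ^ 2 = (1 / 2 : ℝ) • (b ^ 2 + b ^ 2) := by module
  rw [h4]
  nth_rewrite 1 [hq1]
  rw [hq2, Form.d_smul, Form.d_add]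
  change _ = c₃ • e ^ (2 * (s + 1)) + (c₁ / 2) • (e ^ s * (G + S G)) + _
  rw [mul_add (e ^ s)]
  module

end

section

variable {B U M : Type*} {dB : Dif B} {dU : Dif U} {dM : Dif M}

/-- **the quadratic relation of `b₁`** in the setting of `phi_side` (`s = 0`: quaternionic case,
`s = 2`: Cayley plane case; `F` has degree `2 (s + 2)`) -/
theorem rel_phi {s : ℕ} {D : ℝ} (hD : 0 < D)
    {φU : U × ℝ → U} (hφU : IsFlow dU (2 * D) φU)
    {φ : B × ℝ → B} (hφ : IsFlow dB (2 * D) φ)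
    {pi : B → U} (hpi : dB.Map dU pi) (hpφ : ∀ b t, pi (φ (b, t)) = φU (pi b, t))
    {foot : U → M} (hfoot : dU.Map dM foot)
    {σ : B → B} (hσ : dB.Map dB σ) (hσσ : ∀ b, σ (σ b) = b)
    (hσφ : ∀ b t, σ (φ (b, t)) = φ (σ b, t)) (hσπ : ∀ b, pi (σ b) = φU (pi b, D))
    {g : B × ℝ → M} (hg : (dB.prod (Dif.lin ℝ)).Map dM g)
    (hg0 : ∀ b, g (b, 0) = foot (pi b)) (hg1 : ∀ b t, g (φ (b, t), 1) = g (b, 1))
    {F : Form dM} (hF : F.d = 0) (hFdeg : Form.IsDeg (2 * (s + 2)) F)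
    {α : Form dU} (hαo : α.sg = -α) (hα : Form.pull φU hφU.map α = pr α + dt)
    {b1 : Form dB} (hb1 : b1 = J φ hφ.map (2 * D) (Form.K (Form.pull g hg F) -
      Form.pull σ hσ (Form.K (Form.pull g hg F))))
    (H0 : ∀ w : Form dB, Form.IsDeg 0 w → w.d = 0 → ∃ c : ℝ, w = c • 1)
    (Hlow : ∀ i, i < s → ∀ w : Form dB, Form.IsDeg (2 * i + 2) w → w.d = 0 →
      ∃ η : Form dB, w = η.d)
    (Hb : ∀ w : Form dB, Form.IsDeg (2 * (s + 1)) w → w.d = 0 →
      ∃ (c : ℝ) (η : Form dB), w = c • b1 + η.d)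
    (HG : ∀ w : Form dB, Form.IsDeg (2 * (s + 2)) w → w.d = 0 →
      ∃ (c : ℝ) (η : Form dB), w = c • Form.pull (fun b => foot (pi b))
        (Dif.Map.comp (f := pi) (g := foot) hfoot hpi) F + η.d)
    (Hhigh : ∀ i, i < s → ∀ w : Form dB, Form.IsDeg (2 * (s + 2) + 2 * i + 2) w → w.d = 0 →
      ∃ η : Form dB, w = η.d) :
    ∃ (a μ : ℝ) (ρ : Form dB), Basic φ hφ.map ρ ∧
      b1 ^ 2 = a • ((2 * D)⁻¹ • Form.pull pi hpi α.d) ^ (2 * (s + 1)) +
        μ • (((2 * D)⁻¹ • Form.pull pi hpi α.d) ^ s *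
          (Form.pull (fun b => g (b, 1)) (map_at hg 1) F +
            Form.pull σ hσ (Form.pull (fun b => g (b, 1)) (map_at hg 1) F))) + ρ.d := by
  set T := 2 * D with hTD
  have hT : T ≠ 0 := by positivity
  have hpD : dU.Map dM (fun v => foot (φU (v, D))) :=
    Dif.Map.comp (f := fun v => φU (v, D)) (g := foot) hfoot (map_at hφU.map D)
  have hgam : (dU.prod (Dif.lin ℝ)).Map dM (fun p => foot (φU p)) :=
    Dif.Map.comp (f := φU) (g := foot) hfoot hφU.map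
  set B0 : Form dU := KT D (Form.pull (fun p => foot (φU p)) hgam F) with hB0
  set Fx := Form.pull foot hfoot F with hFx
  set Fb := Form.pull (fun v => foot (φU (v, D))) hpD F with hFb
  have hpx : dB.Map dM (fun b => foot (pi b)) := Dif.Map.comp (f := pi) (g := foot) hfoot hpi
  have hpb : dB.Map dM (fun b => foot (φU (pi b, D))) :=
    Dif.Map.comp (f := pi) (g := fun v => foot (φU (v, D))) hpD hpi
  set Bx := Form.pull (fun b => foot (pi b)) hpx F with hBx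
  set Bb := Form.pull (fun b => foot (φU (pi b, D))) hpb F with hBb
  set B1 := Form.pull pi hpi B0 with hB1
  set F1 := Form.pull g hg F with hF1
  set G1 := Form.pull (fun b => g (b, 1)) (map_at hg 1) F with hG1
  set S : Form dB →ₐ[ℝ] Form dB := Form.pullA σ hσ with hS
  -- differentials
  have hF1d : F1.d = 0 := by rw [hF1, ← Form.pull_d, hF]; exact map_zero (Form.pullA g hg)
  have hKd : (Form.K F1).d = G1 - Bx := by
    have h1 := homotopy' F1
    have h2 : Form.K (0 : Form (dB.prod (Dif.lin ℝ))) = 0 := WA.K_zero'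
    rw [hF1d, h2, zero_add] at h1
    rw [← h1]
    have h3 : at_ 1 F1 = G1 := at_pull_of hg 1 F
    have h4 : at_ 0 F1 = Bx := pull_pull (Form.map_slice 0) hg hpx hg0 F
    rw [h3, h4]
  have hSx : S Bx = Bb := pull_pull hσ hpx hpb (fun b => by rw [hσπ]) F
  have hB0d : B0.d = Fb - Fx := by
    have h1 := KT_homotopy D (Form.pull (fun p => foot (φU p)) hgam F)
    have h2 : (Form.pull (fun p => foot (φU p)) hgam F).d = 0 := by
      rw [← Form.pull_d, hF]; exact map_zero (Form.pullA _ hgam)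
    rw [h2, KT_zero, zero_add] at h1
    rw [hB0, ← h1]
    have h3 : at_ D (Form.pull (fun p => foot (φU p)) hgam F) = Fb := at_pull_of hgam D F
    have h4 : at_ 0 (Form.pull (fun p => foot (φU p)) hgam F) = Fx :=
      pull_pull (Form.map_slice 0) hgam hfoot (fun v => by rw [hφU.zero]) F
    rw [h3, h4]
  have hB1d : B1.d = Bb - Bx := by
    rw [hB1, ← Form.pull_d, hB0d]
    refine (map_sub (Form.pullA pi hpi) Fb Fx).trans ?_
    congr 1
    · exact pull_pull hpi hpD hpb (fun b => rfl) F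
    · exact pull_pull hpi hfoot hpx (fun b => rfl) F
  set τ := Form.K F1 - S (Form.K F1) - B1 with hτ
  have hτd : τ.d = G1 - S G1 := by
    have h1 : (S (Form.K F1)).d = S G1 - Bb := by
      have h2 : (S (Form.K F1)).d = S (Form.K F1).d := (Form.pull_d σ hσ _).symm
      rw [h2, hKd, map_sub, hSx]
    rw [hτ, Form.d_sub, Form.d_sub, hKd, h1, hB1d]
    abel
  have hJB : J φ hφ.map T B1 = 0 := by
    rw [hB1, ← pull_J hφ.map hφU.map hpi hpφ, hB0]
    have h1 : Form.pull (fun p => foot (φU p)) hgam F = Form.pull φU hφU.map Fx :=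
      (pull_pull hφU.map hfoot hgam (fun p => rfl) F).symm
    rw [h1, J_KT hφU]
    exact map_zero (Form.pullA pi hpi)
  have hJτ : J φ hφ.map T τ = b1 := by
    rw [hτ, J_sub, hJB, sub_zero, hb1]
    rfl
  have hG1b : Basic φ hφ.map G1 := basic_pull (map_at hg 1) hg1 F
  have hG2b : Basic φ hφ.map (S G1) := by
    have h1 : dB.Map dM (fun b => g (σ b, 1)) := fun h => map_at hg 1 (hσ h)
    have h2 : S G1 = Form.pull (fun b => g (σ b, 1)) h1 F :=
      pull_pull hσ (map_at hg 1) h1 (fun b => rfl) F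
    rw [h2]
    exact basic_pull h1 (fun b t => by rw [hσφ, hg1]) F
  have hG1d : G1.d = 0 := by
    rw [hG1, ← Form.pull_d, hF]
    exact map_zero (Form.pullA (fun b => g (b, 1)) (map_at hg 1))
  have hG1deg : Form.IsDeg (2 * (s + 2)) G1 := hFdeg.pull _ _
  have hb1b : Basic φ hφ.map b1 := by rw [← hJτ]; exact J_basic hφ _
  have hτb : Basic φ hφ.map τ.d := by rw [hτd]; exact Basic.sub hG1b hG2b
  have hb1d : b1.d = 0 := by
    have h3 := J_d hφ τ
    rw [J_of_basic T hτb] at h3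
    rw [← hJτ]
    exact neg_eq_zero.1 h3.symm
  have hKdeg : Form.IsDeg (2 * (s + 1) + 1) (Form.K F1) := by
    have h0 : Form.IsDeg (2 * (s + 1) + 1 + 1) F1 := by
      have : 2 * (s + 1) + 1 + 1 = 2 * (s + 2) := by ring
      rw [this]
      exact hFdeg.pull _ _
    exact h0.K
  have hJdeg : ∀ {k : ℕ} {w : Form dB}, Form.IsDeg (k + 1) w →
      Form.IsDeg k (J φ hφ.map T w) := by
    intro k w hw
    have h4 := WA.part_J hφ.map k T w
    change Form.part k _ = _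
    rw [h4, hw.part_eq]
  have hb1deg : Form.IsDeg (2 * (s + 1)) b1 := by
    rw [hb1]
    exact hJdeg (hKdeg.sub (hKdeg.pull _ _))
  -- the contact form
  have hαB : Form.pull φ hφ.map (Form.pull pi hpi α) = pr (Form.pull pi hpi α) + dt := by
    have hm : (dB.prod (Dif.lin ℝ)).Map dU (fun p => pi (φ p)) :=
      Dif.Map.comp (f := φ) (g := pi) hpi hφ.map
    have h1 : Form.pull φ hφ.map (Form.pull pi hpi α) =
        Form.pull (fun p : B × ℝ => (pi p.1, p.2)) (map_cyl hpi) (Form.pull φU hφU.map α) := by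
      rw [pull_pull hφ.map hpi hm (fun p => rfl),
        pull_pull (map_cyl hpi) hφU.map hm (fun p => (hpφ p.1 p.2).symm)]
    rw [h1, hα]
    refine (map_add (Form.pullA _ (map_cyl hpi)) _ _).trans ?_
    congr 1
    · exact pull_pr hpi α
    · exact pull_dt hpi
  have hαBo : (Form.pull pi hpi α).sg = -Form.pull pi hpi α := by
    rw [← Form.pull_sg, hαo]
    exact map_neg (Form.pullA pi hpi) α
  have hσα : Form.pull σ hσ (Form.pull pi hpi α) = Form.pull pi hpi α := by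
    have hm : dB.Map dU (fun b => φU (pi b, D)) :=
      Dif.Map.comp (f := pi) (g := fun v => φU (v, D)) (map_at hφU.map D) hpi
    have h1 : Form.pull σ hσ (Form.pull pi hpi α) =
        Form.pull (fun b => φU (pi b, D)) hm α := pull_pull hσ hpi hm hσπ α
    have h2 : Form.pull (fun v => φU (v, D)) (map_at hφU.map D) α = α := by
      have h3 := congrArg (at_ D) hα
      have h4 : at_ D (Form.pull φU hφU.map α) = Form.pull (fun v => φU (v, D)) (map_at hφU.map D) α :=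
        at_pull_of hφU.map D α
      have h5 : at_ D (pr α + dt) = α := by
        rw [at_add, at_pr, WA.at_dt, add_zero]
      rw [h4, h5] at h3
      exact h3
    rw [h1]
    have h6 := pull_pull hpi (map_at hφU.map D) hm (fun b => rfl) α
    rw [← h6, h2]
  have hed : (Form.pull pi hpi α).d = Form.pull pi hpi α.d := (Form.pull_d _ _ _).symm
  have hSb1 : Form.pull σ hσ b1 = -b1 := by
    have h1 : Form.pull σ hσ (J φ hφ.map T (Form.K F1 - S (Form.K F1))) =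
        J φ hφ.map T (S (Form.K F1 - S (Form.K F1))) := pull_J hφ.map hφ.map hσ hσφ T _
    have hSS : ∀ w, S (S w) = w := fun w =>
      (pull_pull (k := fun b : B => b) hσ hσ (fun h => h) hσσ w).trans (Form.pull_id _ w)
    have h2 : b1 = J φ hφ.map T (Form.K F1 - S (Form.K F1)) := hb1
    rw [h2, h1, ← J_neg]
    congr 1
    rw [map_sub, hSS]
    abel
  have hxy : G1 - Form.pull σ hσ G1 = (T⁻¹ • (Form.pull pi hpi α).d) * b1 +
      (T⁻¹ • J φ hφ.map T (Form.pull pi hpi α * τ)).d := by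
    have h2 := gysin_d hφ hαB hαBo hτb
    have h5 := congrArg (fun v : Form dB => T⁻¹ • v) h2
    simp only [smul_smul, inv_mul_cancel₀ hT, one_smul, smul_add] at h5
    rw [hJτ, hτd] at h5
    change G1 - S G1 = _
    rw [h5, Form.d_smul, smul_mul_assoc]
  obtain ⟨a, μ, ρ, h1, h2⟩ := rel hφ hT hαB hαBo hb1b hb1d hb1deg hG1b hG1d hG1deg hσ hσφ hσσ
    hσα hSb1 (Basic.smul _ (J_basic hφ _)) hxy H0 Hlow Hb
    (fun w hw hd => by
      obtain ⟨c, η, h1⟩ := HG w hw hd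
      refine ⟨c, η - c • Form.K F1, ?_⟩
      rw [h1, Form.d_sub, Form.d_smul, hKd]
      module) Hhigh
  refine ⟨a, μ, ρ, h1, ?_⟩
  rw [hed] at h2
  exact h2

/-- the quadratic relation, quaternionic case: input `hrel` of `H584.phi_side4` -/
theorem rel4 {D : ℝ} (hD : 0 < D)
    {φU : U × ℝ → U} (hφU : IsFlow dU (2 * D) φU)
    {φ : B × ℝ → B} (hφ : IsFlow dB (2 * D) φ)
    {pi : B → U} (hpi : dB.Map dU pi) (hpφ : ∀ b t, pi (φ (b, t)) = φU (pi b, t))
    {foot : U → M} (hfoot : dU.Map dM foot)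
    {σ : B → B} (hσ : dB.Map dB σ) (hσσ : ∀ b, σ (σ b) = b)
    (hσφ : ∀ b t, σ (φ (b, t)) = φ (σ b, t)) (hσπ : ∀ b, pi (σ b) = φU (pi b, D))
    {g : B × ℝ → M} (hg : (dB.prod (Dif.lin ℝ)).Map dM g)
    (hg0 : ∀ b, g (b, 0) = foot (pi b)) (hg1 : ∀ b t, g (φ (b, t), 1) = g (b, 1))
    {F : Form dM} (hF : F.d = 0) (hFdeg : Form.IsDeg 4 F)
    {α : Form dU} (hαo : α.sg = -α) (hα : Form.pull φU hφU.map α = pr α + dt)
    {b1 : Form dB} (hb1 : b1 = J φ hφ.map (2 * D) (Form.K (Form.pull g hg F) -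
      Form.pull σ hσ (Form.K (Form.pull g hg F))))
    (H0 : ∀ w : Form dB, Form.IsDeg 0 w → w.d = 0 → ∃ c : ℝ, w = c • 1)
    (H2 : ∀ w : Form dB, Form.IsDeg 2 w → w.d = 0 → ∃ (c : ℝ) (η : Form dB), w = c • b1 + η.d)
    (H4 : ∀ w : Form dB, Form.IsDeg 4 w → w.d = 0 →
      ∃ (c : ℝ) (η : Form dB), w = c • Form.pull (fun b => foot (pi b))
        (Dif.Map.comp (f := pi) (g := foot) hfoot hpi) F + η.d) :
    ∃ (a μ : ℝ) (ρ : Form dB), Basic φ hφ.map ρ ∧
      b1 ^ 2 = a • ((2 * D)⁻¹ • Form.pull pi hpi α.d) ^ 2 +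
        μ • (Form.pull (fun b => g (b, 1)) (map_at hg 1) F +
            Form.pull σ hσ (Form.pull (fun b => g (b, 1)) (map_at hg 1) F)) + ρ.d := by
  obtain ⟨a, μ, ρ, h1, h2⟩ := rel_phi (s := 0) hD hφU hφ hpi hpφ hfoot hσ hσσ hσφ hσπ hg hg0 hg1
    hF hFdeg hαo hα hb1 H0 (fun i hi => absurd hi (Nat.not_lt_zero i)) H2 H4
    (fun i hi => absurd hi (Nat.not_lt_zero i))
  refine ⟨a, μ, ρ, h1, ?_⟩
  rw [h2, pow_zero, one_mul]

/-- the quadratic relation, Cayley plane case: input `hrel` of `H584.phi_side8` -/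
theorem rel8 {D : ℝ} (hD : 0 < D)
    {φU : U × ℝ → U} (hφU : IsFlow dU (2 * D) φU)
    {φ : B × ℝ → B} (hφ : IsFlow dB (2 * D) φ)
    {pi : B → U} (hpi : dB.Map dU pi) (hpφ : ∀ b t, pi (φ (b, t)) = φU (pi b, t))
    {foot : U → M} (hfoot : dU.Map dM foot)
    {σ : B → B} (hσ : dB.Map dB σ) (hσσ : ∀ b, σ (σ b) = b)
    (hσφ : ∀ b t, σ (φ (b, t)) = φ (σ b, t)) (hσπ : ∀ b, pi (σ b) = φU (pi b, D))
    {g : B × ℝ → M} (hg : (dB.prod (Dif.lin ℝ)).Map dM g)
    (hg0 : ∀ b, g (b, 0) = foot (pi b)) (hg1 : ∀ b t, g (φ (b, t), 1) = g (b, 1))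
    {F : Form dM} (hF : F.d = 0) (hFdeg : Form.IsDeg 8 F)
    {α : Form dU} (hαo : α.sg = -α) (hα : Form.pull φU hφU.map α = pr α + dt)
    {b1 : Form dB} (hb1 : b1 = J φ hφ.map (2 * D) (Form.K (Form.pull g hg F) -
      Form.pull σ hσ (Form.K (Form.pull g hg F))))
    (H0 : ∀ w : Form dB, Form.IsDeg 0 w → w.d = 0 → ∃ c : ℝ, w = c • 1)
    (H2 : ∀ w : Form dB, Form.IsDeg 2 w → w.d = 0 → ∃ η : Form dB, w = η.d)
    (H4 : ∀ w : Form dB, Form.IsDeg 4 w → w.d = 0 → ∃ η : Form dB, w = η.d)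
    (H6 : ∀ w : Form dB, Form.IsDeg 6 w → w.d = 0 → ∃ (c : ℝ) (η : Form dB), w = c • b1 + η.d)
    (H8 : ∀ w : Form dB, Form.IsDeg 8 w → w.d = 0 →
      ∃ (c : ℝ) (η : Form dB), w = c • Form.pull (fun b => foot (pi b))
        (Dif.Map.comp (f := pi) (g := foot) hfoot hpi) F + η.d)
    (H10 : ∀ w : Form dB, Form.IsDeg 10 w → w.d = 0 → ∃ η : Form dB, w = η.d)
    (H12 : ∀ w : Form dB, Form.IsDeg 12 w → w.d = 0 → ∃ η : Form dB, w = η.d) :
    ∃ (a μ : ℝ) (ρ : Form dB), Basic φ hφ.map ρ ∧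
      b1 ^ 2 = a • ((2 * D)⁻¹ • Form.pull pi hpi α.d) ^ 6 +
        μ • (((2 * D)⁻¹ • Form.pull pi hpi α.d) ^ 2 *
          (Form.pull (fun b => g (b, 1)) (map_at hg 1) F +
            Form.pull σ hσ (Form.pull (fun b => g (b, 1)) (map_at hg 1) F))) + ρ.d := by
  refine rel_phi (s := 2) hD hφU hφ hpi hpφ hfoot hσ hσσ hσφ hσπ hg hg0 hg1
    hF hFdeg hαo hα hb1 H0 (fun i hi => ?_) H6 H8 (fun i hi => ?_)
  · interval_cases i
    · exact H2
    · exact H4
  · interval_cases i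
    · exact H10
    · exact H12

end

end Vale.Agent.P231.A3
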