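import Vale.Agent.P231.A3.Rel

/-!
# P231, stage 2: the quadratic relation for the rotation flow
-/

set_option linter.unusedSectionVars false
set_option linter.unusedVariables false

open Set Module Filter Topology
open scoped ContDiff

namespace Vale.Agent.P231.A3

open Fm W H584

section

variable {X : Type*} {D : Dif X} {T : ℝ} {R : X × ℝ → X} (h : IsFlow D T R) {ν : Form D}

/-- pullbacks by maps commuting with the flow preserve basic forms -/
theorem basic_comm {θ : X → X} (hθ : D.Map D θ) (hθR : ∀ x t, θ (R (x, t)) = R (θ x, t))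
    {w : Form D} (hw : Basic R h.map w) : Basic R h.map (Form.pull θ hθ w) := by
  rw [basic_def]
  have hm : (D.prod (Dif.lin ℝ)).Map D (fun p : X × ℝ => θ (R p)) :=
    Dif.Map.comp (f := R) (g := θ) hθ h.map
  have h2 : Form.pull R h.map (Form.pull θ hθ w) = Form.pull (fun p : X × ℝ => θ (R p)) hm w :=
    pull_pull h.map hθ hm (fun p => rfl) w
  have h3 : Form.pull (fun p : X × ℝ => (θ p.1, p.2)) (map_cyl hθ) (Form.pull R h.map w) =
      Form.pull (fun p : X × ℝ => θ (R p)) hm w :=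
    pull_pull (map_cyl hθ) h.map hm (fun p => (hθR p.1 p.2).symm) w
  rw [h2, ← h3, hw, pull_pr hθ]

/-- the connection form changes by a basic form -/
theorem basic_conn (hν : Form.pull R h.map ν = pr ν + dt) {θ : X → X} (hθ : D.Map D θ)
    (hθR : ∀ x t, θ (R (x, t)) = R (θ x, t)) : Basic R h.map (Form.pull θ hθ ν - ν) := by
  rw [basic_def]
  have hm : (D.prod (Dif.lin ℝ)).Map D (fun p : X × ℝ => θ (R p)) :=
    Dif.Map.comp (f := R) (g := θ) hθ h.map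
  have h2 : Form.pull R h.map (Form.pull θ hθ ν) = Form.pull (fun p : X × ℝ => θ (R p)) hm ν :=
    pull_pull h.map hθ hm (fun p => rfl) ν
  have h3 : Form.pull (fun p : X × ℝ => (θ p.1, p.2)) (map_cyl hθ) (Form.pull R h.map ν) =
      Form.pull (fun p : X × ℝ => θ (R p)) hm ν :=
    pull_pull (map_cyl hθ) h.map hm (fun p => (hθR p.1 p.2).symm) ν
  have h4 : Form.pull (fun p : X × ℝ => (θ p.1, p.2)) (map_cyl hθ) (pr ν + dt) =
      pr (Form.pull θ hθ ν) + dt := by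
    refine (map_add (Form.pullA _ (map_cyl hθ)) _ _).trans ?_
    congr 1
    · exact pull_pr hθ ν
    · exact pull_dt hθ
  have h5 : Form.pull R h.map (Form.pull θ hθ ν) = pr (Form.pull θ hθ ν) + dt := by
    rw [h2, ← h3, hν, h4]
  have h6 : Form.pull R h.map (Form.pull θ hθ ν - ν) =
      Form.pull R h.map (Form.pull θ hθ ν) - Form.pull R h.map ν :=
    map_sub (Form.pullA R h.map) _ _
  rw [h6, h5, hν, WA.pr_sub]
  abel

/-- **the quadratic relation for the rotation flow**: `z² = a y² + μ (x₁ + x₂)` modulo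
differentials of basic forms (`y = T⁻¹ dν`, `x₂ = G`, `x₁ = θ^*G`) -/
theorem rel_rot (hT : T ≠ 0) (hν : Form.pull R h.map ν = pr ν + dt) (hνo : ν.sg = -ν)
    {z G : Form D} (hz : Basic R h.map z) (hzd : z.d = 0) (hzdeg : Form.IsDeg 2 z)
    (hG : Basic R h.map G) (hGd : G.d = 0) (hGdeg : Form.IsDeg 4 G)
    {θ : X → X} (hθ : D.Map D θ) (hθR : ∀ x t, θ (R (x, t)) = R (θ x, t))
    (hθθ : ∀ x, θ (θ x) = x)
    {ρ₁ : Form D} (hρ₁ : Basic R h.map ρ₁) (hzθ : Form.pull θ hθ z = -z + ρ₁.d)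
    {ρ₀ : Form D} (hρ₀ : Basic R h.map ρ₀)
    (hxy : Form.pull θ hθ G - G = (T⁻¹ • ν.d) * z + ρ₀.d)
    (H0 : ∀ w : Form D, Form.IsDeg 0 w → w.d = 0 → ∃ c : ℝ, w = c • 1)
    (H2 : ∀ w : Form D, Form.IsDeg 2 w → w.d = 0 → ∃ (c : ℝ) (η : Form D), w = c • z + η.d)
    (H4 : ∀ w : Form D, Form.IsDeg 4 w → w.d = 0 → ∃ (c : ℝ) (η : Form D), w = c • G + η.d) :
    ∃ (a μ : ℝ) (ρ : Form D), Basic R h.map ρ ∧
      z ^ 2 = a • (T⁻¹ • ν.d) ^ 2 + μ • (Form.pull θ hθ G + G) + ρ.d := by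
  obtain ⟨c₁, c₂, c₃, ρ, hρ, hq⟩ := quad (s := 0) h hT hν hνo hz hzd hzdeg hG hGd hGdeg H0
    (fun i hi => absurd hi (Nat.not_lt_zero i)) H2 H4 (fun i hi => absurd hi (Nat.not_lt_zero i))
  set e : Form D := T⁻¹ • ν.d with he
  have hee : e.sg = e := e_even hνo
  have hed : e.d = 0 := e_closed
  have heb : Basic R h.map e := basic_e h hν
  set S : Form D →ₐ[ℝ] Form D := Form.pullA θ hθ with hS
  have hSd : ∀ w, S w.d = (S w).d := fun w => Form.pull_d θ hθ w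
  have hSz : S z = -z + ρ₁.d := hzθ
  obtain ⟨κ, hκ⟩ : ∃ κ : Form D, κ = T⁻¹ • (Form.pull θ hθ ν - ν) := ⟨_, rfl⟩
  have hκb : Basic R h.map κ := by rw [hκ]; exact Basic.smul _ (basic_conn h hν hθ hθR)
  have hSe : S e = e + κ.d := by
    have h1 : S ν = ν + (Form.pull θ hθ ν - ν) := by
      change Form.pull θ hθ ν = _
      abel
    rw [he, map_smul, hSd, h1, Form.d_add, smul_add, hκ, Form.d_smul]
  have hSS : ∀ w, S (S w) = w := fun w =>
    (pull_pull (k := fun b : X => b) hθ hθ (fun h => h) hθθ w).trans (Form.pull_id _ w)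
  have hSbas : ∀ w, Basic R h.map w → Basic R h.map (S w) := fun w hw => basic_comm h hθ hθR hw
  have hm1 : ∀ u : Form D, e * u.d = (e * u).d := fun u => by
    have := mul_d hed hee 1 u
    rwa [pow_one] at this
  rw [pow_zero, one_mul] at hq
  change S G - G = _ at hxy
  have hez : e * z = S G - G - ρ₀.d := by rw [hxy]; abel
  -- the relation with `e z` replaced
  have hq1 : z ^ 2 = c₁ • G + c₂ • (S G - G) + c₃ • e ^ 2 + (ρ - c₂ • ρ₀).d := by
    rw [hq, hez, Form.d_sub, Form.d_smul]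
    module
  set ρ' := ρ - c₂ • ρ₀ with hρ'
  have hρ'b : Basic R h.map ρ' := Basic.sub hρ (Basic.smul _ hρ₀)
  -- squares
  have hzz : (z.d) = 0 := hzd
  have hze : z.sg = z := hzdeg.sg_of_even (by decide)
  have hρ1d : (ρ₁.d).d = 0 := Form.d_d _
  have hcz : ρ₁.d * z = z * ρ₁.d := by
    have := (even_comm hze (ρ₁.d)).eq
    exact this.symm
  have hmz : ∀ u : Form D, z * u.d = (z * u).d := fun u => by
    rw [Form.d_mul, hzd, hze, zero_mul, zero_add]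
  have hSz2 : S (z ^ 2) = z ^ 2 + (-(2 : ℝ) • (z * ρ₁) + ρ₁ * ρ₁.d).d := by
    have h1 : (ρ₁ * ρ₁.d).d = ρ₁.d * ρ₁.d := by rw [Form.d_mul, Form.d_d, mul_zero, add_zero]
    rw [map_pow, hSz, pow_two, pow_two, Form.d_add, Form.d_smul, ← hmz, h1]
    have h2 : (-z + ρ₁.d) * (-z + ρ₁.d) = z * z - z * ρ₁.d - ρ₁.d * z + ρ₁.d * ρ₁.d := by
      noncomm_ring
    rw [h2, hcz]
    module
  have hSe2 : S (e ^ 2) = e ^ 2 + ((2 : ℝ) • (e * κ) + κ * κ.d).d := by
    have h1 : (κ * κ.d).d = κ.d * κ.d := by rw [Form.d_mul, Form.d_d, mul_zero, add_zero]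
    have hce : κ.d * e = e * κ.d := by
      have := (even_comm hee (κ.d)).eq
      exact this.symm
    rw [map_pow, hSe, pow_two, pow_two, Form.d_add, Form.d_smul, ← hm1, h1]
    have h2 : (e + κ.d) * (e + κ.d) = e * e + e * κ.d + κ.d * e + κ.d * κ.d := by
      noncomm_ring
    rw [h2, hce]
    module
  have h3 := congrArg S hq1
  rw [hSz2, map_add, map_add, map_add, map_smul, map_smul, map_smul, map_sub, hSS, hSe2, hSd] at h3
  have h4 : z ^ 2 = c₁ • S G + c₂ • (G - S G) + c₃ • e ^ 2 +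
      (S ρ' + c₃ • ((2 : ℝ) • (e * κ) + κ * κ.d) - (-(2 : ℝ) • (z * ρ₁) + ρ₁ * ρ₁.d)).d := by
    rw [Form.d_sub, Form.d_add, Form.d_smul]
    have := eq_sub_of_add_eq h3
    rw [this]
    module
  refine ⟨c₃, c₁ / 2, (1 / 2 : ℝ) • (ρ' + (S ρ' + c₃ • ((2 : ℝ) • (e * κ) + κ * κ.d) -
    (-(2 : ℝ) • (z * ρ₁) + ρ₁ * ρ₁.d))), ?_, ?_⟩
  · exact Basic.smul _ (Basic.add hρ'b (Basic.sub (Basic.add (hSbas _ hρ'b) (Basic.smul _
      (Basic.add (Basic.smul _ (Basic.mul heb hκb)) (Basic.mul hκb (Basic.d hκb)))))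
      (Basic.add (Basic.smul _ (Basic.mul hz hρ₁)) (Basic.mul hρ₁ (Basic.d hρ₁)))))
  · have h5 : z ^ 2 = (1 / 2 : ℝ) • (z ^ 2 + z ^ 2) := by module
    rw [h5]
    nth_rewrite 1 [hq1]
    rw [h4, Form.d_smul, Form.d_add]
    change _ = c₃ • e ^ 2 + (c₁ / 2) • (S G + G) + _
    module

/-- **`y² + z² = 2 c (x₁ + x₂)`** -/
theorem sq (hT : T ≠ 0) (hν : Form.pull R h.map ν = pr ν + dt) (hνo : ν.sg = -ν)
    {z G : Form D} (hz : Basic R h.map z) (hzd : z.d = 0) (hzdeg : Form.IsDeg 2 z)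
    (hG : Basic R h.map G) (hGd : G.d = 0) (hGdeg : Form.IsDeg 4 G)
    {θ : X → X} (hθ : D.Map D θ) (hθR : ∀ x t, θ (R (x, t)) = R (θ x, t))
    (hθθ : ∀ x, θ (θ x) = x)
    {ρ₁ : Form D} (hρ₁ : Basic R h.map ρ₁) (hzθ : Form.pull θ hθ z = -z + ρ₁.d)
    {ρ₀ : Form D} (hρ₀ : Basic R h.map ρ₀)
    (hxy : Form.pull θ hθ G - G = (T⁻¹ • ν.d) * z + ρ₀.d)
    (H0 : ∀ w : Form D, Form.IsDeg 0 w → w.d = 0 → ∃ c : ℝ, w = c • 1)
    (H2 : ∀ w : Form D, Form.IsDeg 2 w → w.d = 0 → ∃ (c : ℝ) (η : Form D), w = c • z + η.d)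
    (H4 : ∀ w : Form D, Form.IsDeg 4 w → w.d = 0 → ∃ (c : ℝ) (η : Form D), w = c • G + η.d)
    (I : Form D →ₗ[ℝ] ℝ) (hId : ∀ w : Form D, I w.d = 0)
    (hIb : ∀ w : Form D, Basic R h.map w → I w = 0)
    {w : Form D} (hwb : Basic R h.map w) (hwd : w.d = 0) (hwe : w.sg = w)
    (hxw : (Form.pull θ hθ G + G) * w = 0)
    (hpt : I (ν * (((T⁻¹ • ν.d) ^ 2 + z ^ 2) * w)) = 0)
    (hne : I (ν * (z ^ 2 * w)) ≠ 0) :
    ∃ (c : ℝ) (ρ : Form D), Basic R h.map ρ ∧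
      (T⁻¹ • ν.d) ^ 2 + z ^ 2 = (2 * c) • (Form.pull θ hθ G + G) + ρ.d := by
  obtain ⟨a, μ, ρ, hρ, hrel⟩ := rel_rot h hT hν hνo hz hzd hzdeg hG hGd hGdeg hθ hθR hθθ hρ₁ hzθ
    hρ₀ hxy H0 H2 H4
  set e : Form D := T⁻¹ • ν.d with he
  have hd : I (ν * (ρ.d * w)) = 0 := by
    have h1 : (ν * (ρ * w)).d = ν.d * (ρ * w) - ν * (ρ.d * w) := by
      rw [Form.d_mul, hνo, Form.d_mul ρ w, hwd, mul_zero, add_zero, neg_mul, sub_eq_add_neg]
    have h2 := hId (ν * (ρ * w))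
    rw [h1, map_sub] at h2
    have h3 : Basic R h.map (ν.d * (ρ * w)) := by
      have h4 : ν.d = T • e := by rw [he, smul_smul, mul_inv_cancel₀ hT, one_smul]
      rw [h4]
      exact Basic.mul (Basic.smul _ (basic_e h hν)) (Basic.mul hρ hwb)
    rw [hIb _ h3, zero_sub, neg_eq_zero] at h2
    exact h2
  have h5 : I (ν * (z ^ 2 * w)) = a * I (ν * (e ^ 2 * w)) := by
    rw [hrel, add_mul, add_mul, smul_mul_assoc, smul_mul_assoc, hxw, smul_zero, add_zero, mul_add,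
      mul_smul_comm, map_add, map_smul, hd, add_zero, smul_eq_mul]
  have h6 : I (ν * (e ^ 2 * w)) = -I (ν * (z ^ 2 * w)) := by
    have h7 := hpt
    rw [add_mul, mul_add, map_add] at h7
    linarith
  have ha : a = -1 := by
    rw [h6] at h5
    have h8 : (a + 1) * I (ν * (z ^ 2 * w)) = 0 := by linear_combination h5
    rcases mul_eq_zero.1 h8 with h9 | h9
    · linarith
    · exact absurd h9 hne
  refine ⟨μ / 2, ρ, hρ, ?_⟩
  rw [hrel, ha]
  have h10 : (2 * (μ / 2) : ℝ) = μ := by ring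
  rw [h10]
  module

/-- integration against the connection form kills differentials of basic forms -/
theorem int_conn_d (hT : T ≠ 0) (hν : Form.pull R h.map ν = pr ν + dt) (hνo : ν.sg = -ν)
    (I : Form D →ₗ[ℝ] ℝ) (hId : ∀ w : Form D, I w.d = 0)
    (hIb : ∀ w : Form D, Basic R h.map w → I w = 0)
    {w : Form D} (hwb : Basic R h.map w) (hwd : w.d = 0) {ρ : Form D} (hρ : Basic R h.map ρ) :
    I (ν * (ρ.d * w)) = 0 := by
  have h1 : (ν * (ρ * w)).d = ν.d * (ρ * w) - ν * (ρ.d * w) := by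
    rw [Form.d_mul, hνo, Form.d_mul ρ w, hwd, mul_zero, add_zero, neg_mul, sub_eq_add_neg]
  have h2 := hId (ν * (ρ * w))
  rw [h1, map_sub] at h2
  have h3 : Basic R h.map (ν.d * (ρ * w)) := by
    have h4 : ν.d = T • (T⁻¹ • ν.d) := by rw [smul_smul, mul_inv_cancel₀ hT, one_smul]
    rw [h4]
    exact Basic.mul (Basic.smul _ (basic_e h hν)) (Basic.mul hρ hwb)
  rw [hIb _ h3, zero_sub, neg_eq_zero] at h2
  exact h2

end

end Vale.Agent.P231.A3
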