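import Vale.Agent.P231.A3.Sq

/-!
# P231, stage 2: the relation `y² + z² = 2 c (x₁ + x₂)` in the setting of the phi-side
-/

set_option linter.unusedSectionVars false
set_option linter.unusedVariables false

open Set Module Filter Topology MeasureTheory
open scoped ContDiff

namespace Vale.Agent.P231.A3

open Fm W H584

section

variable {X : Type*} {D : Dif X}

theorem co_trans {E : Type} [NormedAddCommGroup E] [NormedSpace ℝ E] [FiniteDimensional ℝ E]
    (c : ℝ) (w : Form (D.prod (Dif.lin ℝ))) {u : E → X} {x : E} (h : D.At u x) (t : ℝ) :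
    co (Form.pull (fun p : X × ℝ => (p.1, p.2 + c)) (map_trans c) w) u x t =
      co w u x (t + c) := by
  rw [co, co, Form.pull_val _ _ (Form.cyl_at h t)]
  have h1 : (fun p : X × ℝ => (p.1, p.2 + c)) ∘ Form.cyl u =
      Form.cyl u ∘ fun p : E × ℝ => (p.1, p.2 + c) := rfl
  have h2 : Sm (fun p : E × ℝ => (p.1, p.2 + c)) (x, t) :=
    Sm.of_contDiff (contDiff_fst.prodMk (contDiff_snd.add contDiff_const)) _
  rw [h1, w.nat (u := Form.cyl u) (g := fun p : E × ℝ => (p.1, p.2 + c)) (x := (x, t))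
    (Form.cyl_at h _) h2]
  have h3 : fderiv ℝ (fun p : E × ℝ => (p.1, p.2 + c)) (x, t) =
      ContinuousLinearMap.id ℝ (E × ℝ) := by
    have h4 : HasFDerivAt (fun p : E × ℝ => (p.1, p.2 + c))
        ((ContinuousLinearMap.fst ℝ E ℝ).prod (ContinuousLinearMap.snd ℝ E ℝ)) (x, t) :=
      hasFDerivAt_fst.prodMk (hasFDerivAt_snd.add_const c)
    rw [h4.fderiv]
    ext <;> simp
  rw [h3, Fm.pull_id]
  rfl

/-- additivity of the time integral -/
theorem KT_cat (a b : ℝ) (w : Form (D.prod (Dif.lin ℝ))) :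
    KT a w + KT b (Form.pull (fun p : X × ℝ => (p.1, p.2 + a)) (map_trans a) w) = KT (a + b) w :=
  Form.ext_val fun E _ _ _ u x h => by
    rw [Form.add_val, KT_val _ _ h, KT_val _ _ h, KT_val _ _ h]
    simp only [co_trans a w h]
    have h1 := (continuous_co w h)
    have h2 : ∫ t in (0 : ℝ)..b, co w u x (t + a) = ∫ t in a..(a + b), co w u x t := by
      rw [intervalIntegral.integral_comp_add_right (fun t => co w u x t), zero_add, add_comm b a]
    rw [h2]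
    exact intervalIntegral.integral_add_adjacent_intervals (h1.intervalIntegrable _ _)
      (h1.intervalIntegrable _ _)

/-- two half periods make a period -/
theorem KT_half {T : ℝ} {Φ : X × ℝ → X} (h : IsFlow D (2 * T) Φ) (w : Form D) :
    KT T (Form.pull Φ h.map w) +
      Form.pull (fun v => Φ (v, T)) (map_at h.map T) (KT T (Form.pull Φ h.map w)) =
        J Φ h.map (2 * T) w := by
  have hT : D.Map D (fun v => Φ (v, T)) := map_at h.map T
  have h1 : Form.pull (fun v => Φ (v, T)) hT (KT T (Form.pull Φ h.map w)) =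
      KT T (Form.pull (fun p : X × ℝ => (Φ (p.1, T), p.2)) (map_cyl hT) (Form.pull Φ h.map w)) := by
    have h2 : (D.prod (Dif.lin ℝ)).Map (D.prod (Dif.lin ℝ))
        (fun p : X × ℝ => (Φ (p.1, T), T * p.2)) :=
      fun {E} _ _ _ {u x} hh => map_scale T (map_cyl hT hh)
    rw [KT, KT, ← K_nat hT]
    congr 1
    rw [pull_pull (map_cyl hT) (map_scale T) h2 (fun p => rfl)]
    exact (pull_pull (map_scale T) (map_cyl hT) h2 (fun p => rfl) _).symm
  have h3 : Form.pull (fun p : X × ℝ => (Φ (p.1, T), p.2)) (map_cyl hT) (Form.pull Φ h.map w) =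
      Form.pull (fun p : X × ℝ => (p.1, p.2 + T)) (map_trans T) (Form.pull Φ h.map w) := by
    have h4 : (D.prod (Dif.lin ℝ)).Map D (fun p : X × ℝ => Φ (Φ (p.1, T), p.2)) :=
      Dif.Map.comp (f := fun p : X × ℝ => (Φ (p.1, T), p.2)) (g := Φ) h.map (map_cyl hT)
    rw [pull_pull (map_cyl hT) h.map h4 (fun p => rfl),
      pull_pull (map_trans T) h.map h4 (fun p => by rw [h.add, add_comm])]
  rw [h1, h3, KT_cat, J_def]
  have h5 : T + T = 2 * T := (two_mul T).symm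
  exact congrArg (fun r => KT r (Form.pull Φ h.map w)) h5

end

section

variable {B U M : Type*} {dB : Dif B} {dU : Dif U} {dM : Dif M}

/-- **`y² + z² = 2 c (x₁ + x₂)`** in the setting of `H584.phi_side4`: `θ = (φ_D v, φ_D w)`,
`z = κ⁻¹ J_ψ(π^* B₀)`, `x₂ = κ⁻¹ foot^* F`, `x₁ = κ⁻¹ bar^* F`. -/
theorem sq_main {D : ℝ} (hD : 0 < D)
    {φU : U × ℝ → U} (hφU : IsFlow dU (2 * D) φU)
    {T : ℝ} (hT : T ≠ 0) {ψ : B × ℝ → B} (hψ : IsFlow dB T ψ)
    {pi : B → U} (hpi : dB.Map dU pi)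
    {foot : U → M} (hfoot : dU.Map dM foot)
    (hfψ : ∀ b t, foot (pi (ψ (b, t))) = foot (pi b))
    (hfψ' : ∀ b t, foot (φU (pi (ψ (b, t)), D)) = foot (φU (pi b, D)))
    {θ : B → B} (hθ : dB.Map dB θ) (hθθ : ∀ b, θ (θ b) = b)
    (hθψ : ∀ b t, θ (ψ (b, t)) = ψ (θ b, t)) (hθπ : ∀ b, pi (θ b) = φU (pi b, D))
    {F : Form dM} (hF : F.d = 0) (hFdeg : Form.IsDeg 4 F)
    {B0 : Form dU} (hB0 : B0 = KT D (Form.pull (fun p => foot (φU p))
      (Dif.Map.comp (f := φU) (g := foot) hfoot hφU.map) F))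
    {ν : Form dB} (hνo : ν.sg = -ν) (hν : Form.pull ψ hψ.map ν = pr ν + dt)
    {κ : ℝ} (hκ : κ ≠ 0)
    {y z x₁ x₂ : Form dB} (hy : y = T⁻¹ • ν.d)
    (hz : z = κ⁻¹ • J ψ hψ.map T (Form.pull pi hpi B0))
    (hx₂ : x₂ = κ⁻¹ • Form.pull (fun b => foot (pi b))
      (Dif.Map.comp (f := pi) (g := foot) hfoot hpi) F)
    (hx₁ : x₁ = κ⁻¹ • Form.pull (fun b => foot (φU (pi b, D)))
      (Dif.Map.comp (f := pi) (g := fun v => foot (φU (v, D)))
        (Dif.Map.comp (f := fun v => φU (v, D)) (g := foot) hfoot (map_at hφU.map D)) hpi) F)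
    (H3 : ∀ w : Form dU, Form.IsDeg 3 w → w.d = 0 → ∃ η : Form dU, w = η.d)
    (H0 : ∀ w : Form dB, Form.IsDeg 0 w → w.d = 0 → ∃ c : ℝ, w = c • 1)
    (H2 : ∀ w : Form dB, Form.IsDeg 2 w → w.d = 0 → ∃ (c : ℝ) (η : Form dB), w = c • z + η.d)
    (H4 : ∀ w : Form dB, Form.IsDeg 4 w → w.d = 0 → ∃ (c : ℝ) (η : Form dB), w = c • x₂ + η.d)
    (I : Form dB →ₗ[ℝ] ℝ) (hId : ∀ w : Form dB, I w.d = 0)
    (hIb : ∀ w : Form dB, Basic ψ hψ.map w → I w = 0)
    {w : Form dB} (hwb : Basic ψ hψ.map w) (hwd : w.d = 0) (hwe : w.sg = w)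
    (hxw : (x₁ + x₂) * w = 0) (hpt : I (ν * ((y ^ 2 + z ^ 2) * w)) = 0)
    (hne : I (ν * (z ^ 2 * w)) ≠ 0) :
    (∃ ρ : Form dB, Basic ψ hψ.map ρ ∧ x₁ - x₂ = y * z + ρ.d) ∧
    (∃ ρ : Form dB, Basic ψ hψ.map ρ ∧ Form.pull θ hθ z = -z + ρ.d) ∧
    ∃ (c : ℝ) (ρ : Form dB), Basic ψ hψ.map ρ ∧ y ^ 2 + z ^ 2 = (2 * c) • (x₁ + x₂) + ρ.d := by
  have hpD : dU.Map dM (fun v => foot (φU (v, D))) :=
    Dif.Map.comp (f := fun v => φU (v, D)) (g := foot) hfoot (map_at hφU.map D)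
  have hgam : (dU.prod (Dif.lin ℝ)).Map dM (fun p => foot (φU p)) :=
    Dif.Map.comp (f := φU) (g := foot) hfoot hφU.map
  set Fx := Form.pull foot hfoot F with hFx
  set Fb := Form.pull (fun v => foot (φU (v, D))) hpD F with hFb
  have hpx : dB.Map dM (fun b => foot (pi b)) := Dif.Map.comp (f := pi) (g := foot) hfoot hpi
  have hpb : dB.Map dM (fun b => foot (φU (pi b, D))) :=
    Dif.Map.comp (f := pi) (g := fun v => foot (φU (v, D))) hpD hpi
  set Bx := Form.pull (fun b => foot (pi b)) hpx F with hBx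
  set Bb := Form.pull (fun b => foot (φU (pi b, D))) hpb F with hBb
  set B1 := Form.pull pi hpi B0 with hB1
  change x₂ = κ⁻¹ • Bx at hx₂
  change x₁ = κ⁻¹ • Bb at hx₁
  have hgF : Form.pull (fun p => foot (φU p)) hgam F = Form.pull φU hφU.map Fx :=
    (pull_pull hφU.map hfoot hgam (fun p => rfl) F).symm
  change B0 = KT D (Form.pull (fun p => foot (φU p)) hgam F) at hB0
  have hB0d : B0.d = Fb - Fx := by
    have h1 := KT_homotopy D (Form.pull (fun p => foot (φU p)) hgam F)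
    have h2 : (Form.pull (fun p => foot (φU p)) hgam F).d = 0 := by
      rw [← Form.pull_d, hF]; exact map_zero (Form.pullA _ hgam)
    rw [h2, KT_zero, zero_add] at h1
    rw [hB0, ← h1]
    have h3 : at_ D (Form.pull (fun p => foot (φU p)) hgam F) = Fb := at_pull_of hgam D F
    have h4 : at_ 0 (Form.pull (fun p => foot (φU p)) hgam F) = Fx :=
      pull_pull (Form.map_slice 0) hgam hfoot (fun v => by rw [hφU.zero]) F
    rw [h3, h4]
  have hB1d : B1.d = Bb - Bx := by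
    rw [hB1, ← Form.pull_d, hB0d]
    refine (map_sub (Form.pullA pi hpi) Fb Fx).trans ?_
    congr 1
    · exact pull_pull hpi hpD hpb (fun b => rfl) F
    · exact pull_pull hpi hfoot hpx (fun b => rfl) F
  have hBxb : Basic ψ hψ.map Bx := basic_pull hpx hfψ F
  have hBbb : Basic ψ hψ.map Bb := basic_pull hpb hfψ' F
  have hB1b : Basic ψ hψ.map B1.d := by rw [hB1d]; exact Basic.sub hBbb hBxb
  have hFxd : Fx.d = 0 := by rw [hFx, ← Form.pull_d, hF]; exact map_zero (Form.pullA foot hfoot)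
  have hBxd : Bx.d = 0 := by rw [hBx, ← Form.pull_d, hF]; exact map_zero (Form.pullA _ hpx)
  have hJdeg : ∀ {k : ℕ} {w : Form dB}, Form.IsDeg (k + 1) w →
      Form.IsDeg k (J ψ hψ.map T w) := by
    intro k w hw
    have h4 := WA.part_J hψ.map k T w
    change Form.part k _ = _
    rw [h4, hw.part_eq]
  have hB0deg : Form.IsDeg 3 B0 := by
    rw [hB0]
    have h1 := WA.part_KT 3 D (Form.pull (fun p => foot (φU p)) hgam F)
    change Form.part 3 _ = _
    rw [h1]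
    have h2 : Form.IsDeg (3 + 1) (Form.pull (fun p => foot (φU p)) hgam F) := hFdeg.pull _ _
    rw [h2.part_eq]
  have hzb : Basic ψ hψ.map z := by rw [hz]; exact Basic.smul _ (J_basic hψ _)
  have hzd : z.d = 0 := by
    have h3 := J_d hψ B1
    rw [J_of_basic T hB1b] at h3
    rw [hz, Form.d_smul, neg_eq_zero.1 h3.symm, smul_zero]
  have hzdeg : Form.IsDeg 2 z := by
    rw [hz]
    exact (hJdeg (hB0deg.pull _ _)).smul _
  -- Gysin relation
  have hgy : ∃ ρ : Form dB, Basic ψ hψ.map ρ ∧ x₁ - x₂ = y * z + ρ.d := by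
    refine ⟨κ⁻¹ • T⁻¹ • J ψ hψ.map T (ν * B1), Basic.smul _ (Basic.smul _ (J_basic hψ _)), ?_⟩
    have h2 := gysin_d hψ hν hνo hB1b
    have h5 := congrArg (fun v : Form dB => κ⁻¹ • T⁻¹ • v) h2
    simp only [smul_smul, smul_add] at h5
    have h7 : κ⁻¹ * (T⁻¹ * T) = κ⁻¹ := by field_simp
    rw [hx₁, hx₂, hy, hz, ← smul_sub, ← hB1d, Form.d_smul, Form.d_smul, smul_mul_assoc,
      mul_smul_comm, smul_smul, smul_smul]
    rw [h7] at h5
    rw [h5, mul_comm T⁻¹ κ⁻¹]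
  -- the symmetry
  have hzθ : ∃ ρ : Form dB, Basic ψ hψ.map ρ ∧ Form.pull θ hθ z = -z + ρ.d := by
    set Ψ := J φU hφU.map (2 * D) Fx with hΨ
    have hΨ1 : B0 + Form.pull (fun v => φU (v, D)) (map_at hφU.map D) B0 = Ψ := by
      rw [hB0, hgF]
      exact KT_half hφU Fx
    have hΨd : Ψ.d = 0 := by
      have h1 := J_d hφU Fx
      rw [hFxd, ← neg_zero (G := Form dU)] at h1
      have h2 : J φU hφU.map (2 * D) (-0 : Form dU) = 0 := by
        rw [neg_zero]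
        exact J_of_basic _ Basic.zero
      rw [h2] at h1
      exact neg_eq_zero.1 h1.symm
    have hΨdeg : Form.IsDeg 3 Ψ := by
      have h4 := WA.part_J hφU.map 3 (2 * D) Fx
      change Form.part 3 _ = _
      have h5 : Form.IsDeg (3 + 1) Fx := hFdeg.pull _ _
      rw [h4, h5.part_eq]
    obtain ⟨η, hη⟩ := H3 Ψ hΨdeg hΨd
    refine ⟨-(κ⁻¹ • J ψ hψ.map T (Form.pull pi hpi η)),
      Basic.neg (Basic.smul _ (J_basic hψ _)), ?_⟩
    have h1 : Form.pull θ hθ (J ψ hψ.map T B1) = J ψ hψ.map T (Form.pull θ hθ B1) :=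
      pull_J hψ.map hψ.map hθ hθψ T _
    have hm : dB.Map dU (fun b => φU (pi b, D)) :=
      Dif.Map.comp (f := pi) (g := fun v => φU (v, D)) (map_at hφU.map D) hpi
    have h2 : Form.pull θ hθ B1 =
        Form.pull pi hpi (Form.pull (fun v => φU (v, D)) (map_at hφU.map D) B0) := by
      rw [hB1, pull_pull hθ hpi hm hθπ, pull_pull hpi (map_at hφU.map D) hm (fun b => rfl)]
    have h3 : Form.pull θ hθ B1 = Form.pull pi hpi η.d - B1 := by
      rw [h2, ← hη, ← hΨ1]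
      have h4 : Form.pull pi hpi
          (B0 + Form.pull (fun v => φU (v, D)) (map_at hφU.map D) B0) =
          B1 + Form.pull pi hpi (Form.pull (fun v => φU (v, D)) (map_at hφU.map D) B0) :=
        map_add (Form.pullA pi hpi) _ _
      rw [h4]
      abel
    have h5 : Form.pull θ hθ z = κ⁻¹ • Form.pull θ hθ (J ψ hψ.map T B1) := by
      rw [hz]
      exact map_smul (Form.pullA θ hθ) κ⁻¹ _
    rw [h5, h1, h3, J_sub, Form.pull_d, J_d hψ, hz, Form.d_neg, Form.d_smul]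
    module
  refine ⟨hgy, hzθ, ?_⟩
  obtain ⟨ρ₀, hρ₀, hxy⟩ := hgy
  obtain ⟨ρ₁, hρ₁, hzθ'⟩ := hzθ
  have hθx : Form.pull θ hθ x₂ = x₁ := by
    have h1 : Form.pull θ hθ Bx = Bb := pull_pull hθ hpx hpb (fun b => by rw [hθπ]) F
    rw [hx₂, hx₁, ← h1]
    exact map_smul (Form.pullA θ hθ) κ⁻¹ _
  have hx₂b : Basic ψ hψ.map x₂ := by rw [hx₂]; exact Basic.smul _ hBxb
  have hx₂d : x₂.d = 0 := by rw [hx₂, Form.d_smul, hBxd, smul_zero]
  have hx₂deg : Form.IsDeg 4 x₂ := by rw [hx₂]; exact (hFdeg.pull _ _).smul _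
  subst hy
  obtain ⟨c, ρ, h1, h2⟩ := sq hψ hT hν hνo hzb hzd hzdeg hx₂b hx₂d hx₂deg hθ hθψ hθθ hρ₁ hzθ' hρ₀
    (by rw [hθx]; exact hxy) H0 H2 H4 I hId hIb hwb hwd hwe (by rw [hθx]; exact hxw) hpt hne
  exact ⟨c, ρ, h1, by rw [h2, hθx]⟩

/-- the hypothesis `hpt` of `sq_main`: it is enough that `y² + z²` (the Pontryagin class of the
plane bundle) comes from the base -/
theorem hpt_of {T : ℝ} (hT : T ≠ 0) {ψ : B × ℝ → B} (hψ : IsFlow dB T ψ)
    {pi : B → U} (hpi : dB.Map dU pi)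
    {ν : Form dB} (hνo : ν.sg = -ν) (hν : Form.pull ψ hψ.map ν = pr ν + dt)
    {p : Form dB} {τ : Form dU} {ρ : Form dB} (hρ : Basic ψ hψ.map ρ)
    (hp : p = Form.pull pi hpi τ + ρ.d)
    (I : Form dB →ₗ[ℝ] ℝ) (hId : ∀ w : Form dB, I w.d = 0)
    (hIb : ∀ w : Form dB, Basic ψ hψ.map w → I w = 0)
    (hIν : ∀ u : Form dU, I (ν * Form.pull pi hpi u) = 0)
    {w : Form dB} (hwb : Basic ψ hψ.map w) (hwd : w.d = 0)
    {w' : Form dU} (hw : w = Form.pull pi hpi w') :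
    I (ν * (p * w)) = 0 := by
  have h1 : Form.pull pi hpi (τ * w') = Form.pull pi hpi τ * w := by
    rw [hw]
    exact map_mul (Form.pullA pi hpi) τ w'
  rw [hp, add_mul, mul_add, map_add, int_conn_d hψ hT hν hνo I hId hIb hwb hwd hρ, add_zero, ← h1]
  exact hIν _

end

end Vale.Agent.P231.A3
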